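import Mathlib

/-! Row 63 (S0085), part 1: block degree (dual definition) and its algebra. -/

set_option autoImplicit false
open Finset

namespace Crest.Agent.R63

/-- `h` has block degree at most `D`: it is orthogonal to every product test function
having more than `D` mean-zero factors. -/
def BLow {κ α : Type} [Fintype κ] [DecidableEq κ] [Fintype α] (D : ℕ) (h : (κ → α) → ℝ) : Prop :=
  ∀ (φ : κ → α → ℝ) (T : Finset κ), D < T.card → (∀ k ∈ T, ∑ a, φ k a = 0) →
    ∑ s : κ → α, h s * ∏ k, φ k (s k) = 0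

section basic
variable {κ α : Type} [Fintype κ] [DecidableEq κ] [Fintype α]

lemma sum_prod_pi (φ : κ → α → ℝ) : ∑ s : κ → α, ∏ k, φ k (s k) = ∏ k, ∑ a, φ k a := by
  rw [Finset.prod_univ_sum, Fintype.piFinset_univ]

lemma BLow.mono {D D' : ℕ} {h : (κ → α) → ℝ} (H : BLow D h) (hD : D ≤ D') : BLow D' h :=
  fun φ T hT h0 => H φ T (lt_of_le_of_lt hD hT) h0

lemma BLow.congr {D : ℕ} {h h' : (κ → α) → ℝ} (H : BLow D h) (e : ∀ s, h' s = h s) :
    BLow D h' := by
  have : h' = h := funext e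
  rw [this]; exact H

lemma BLow.add {D : ℕ} {h h' : (κ → α) → ℝ} (H : BLow D h) (H' : BLow D h') :
    BLow D (fun s => h s + h' s) := by
  intro φ T hT h0
  simp only [add_mul, Finset.sum_add_distrib, H φ T hT h0, H' φ T hT h0, add_zero]

lemma BLow.const_mul {D : ℕ} {h : (κ → α) → ℝ} (H : BLow D h) (c : ℝ) :
    BLow D (fun s => c * h s) := by
  intro φ T hT h0
  simp only [mul_assoc, ← Finset.mul_sum, H φ T hT h0, mul_zero]

lemma BLow.sum {J : Type} {D : ℕ} (U : Finset J) (h : J → (κ → α) → ℝ)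
    (H : ∀ j ∈ U, BLow D (h j)) : BLow D (fun s => ∑ j ∈ U, h j s) := by
  intro φ T hT h0
  simp only [Finset.sum_mul]
  rw [Finset.sum_comm]
  exact Finset.sum_eq_zero fun j hj => H j hj φ T hT h0

lemma BLow.full (h : (κ → α) → ℝ) : BLow (Fintype.card κ) h := by
  intro φ T hT _
  exact absurd (Finset.card_le_univ T) (not_le.mpr hT)

lemma BLow.prod_on (U : Finset κ) (g : κ → α → ℝ) :
    BLow U.card (fun s : κ → α => ∏ k ∈ U, g k (s k)) := by
  intro φ T hT h0
  have : ∃ k ∈ T, k ∉ U := by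
    by_contra hc
    push Not at hc
    exact absurd (Finset.card_le_card (fun k hk => hc k hk)) (not_le.mpr hT)
  obtain ⟨k, hkT, hkU⟩ := this
  have e : ∀ s : κ → α, (∏ k ∈ U, g k (s k)) * ∏ k, φ k (s k)
      = ∏ k, ((if k ∈ U then g k (s k) else 1) * φ k (s k)) := by
    intro s
    rw [Finset.prod_mul_distrib, Finset.prod_ite_mem, Finset.univ_inter]
  simp only [e]
  rw [sum_prod_pi (fun k a => (if k ∈ U then g k a else 1) * φ k a)]
  apply Finset.prod_eq_zero (Finset.mem_univ k)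
  simp [hkU, h0 k hkT]

lemma BLow.const (D : ℕ) (c : ℝ) : BLow D (fun _ : κ → α => c) := by
  have := ((BLow.prod_on (κ := κ) (α := α) ∅ (fun _ _ => 1)).const_mul c).mono
    (D' := D) (by simp)
  exact this.congr (by simp)

lemma BLow.coord (k : κ) (g : α → ℝ) : BLow 1 (fun s : κ → α => g (s k)) := by
  have := BLow.prod_on (κ := κ) (α := α) {k} (fun _ => g)
  exact this.congr (by simp)

lemma BLow.coord2 (k l : κ) (g g' : α → ℝ) : BLow 2 (fun s : κ → α => g (s k) * g' (s l)) := by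
  by_cases hkl : k = l
  · subst hkl
    exact (BLow.coord k (fun a => g a * g' a)).mono (by norm_num)
  · have := BLow.prod_on (κ := κ) (α := α) {k, l} (fun j => if j = k then g else g')
    rw [Finset.card_pair hkl] at this
    refine this.congr fun s => ?_
    rw [Finset.prod_pair hkl]
    simp [Ne.symm hkl]

end basic

section sums
variable {α : Type} [Fintype α]

lemma sum_sumPi {κ₁ κ₂ : Type} [Fintype κ₁] [DecidableEq κ₁] [Fintype κ₂] [DecidableEq κ₂]
    (f : (κ₁ → α) → (κ₂ → α) → ℝ) :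
    ∑ s : κ₁ ⊕ κ₂ → α, f (fun k => s (Sum.inl k)) (fun k => s (Sum.inr k))
      = ∑ s₁, ∑ s₂, f s₁ s₂ := by
  rw [← Fintype.sum_prod_type']
  exact Fintype.sum_equiv (Equiv.sumArrowEquivProdArrow κ₁ κ₂ α) _ _ (fun s => rfl)

lemma sum_prodPi {J κ : Type} [Fintype J] [DecidableEq J] [Fintype κ] [DecidableEq κ]
    (f : (J → κ → α) → ℝ) :
    ∑ s : J × κ → α, f (fun j k => s (j, k)) = ∑ t, f t :=
  Fintype.sum_equiv (Equiv.curry J κ α) _ _ (fun _ => rfl)

lemma card_eq_sum_fiber {J κ : Type} [Fintype J] [DecidableEq J] [Fintype κ] [DecidableEq κ]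
    (T : Finset (J × κ)) :
    T.card = ∑ j, (Finset.univ.filter (fun k => (j, k) ∈ T)).card := by
  simp only [Finset.card_filter]
  rw [← Fintype.sum_prod_type' (fun j k => if (j, k) ∈ T then 1 else 0)]
  simp

/-- pushing a product weight forward along `F` in every coordinate -/
lemma sum_push {κ X β : Type} [Fintype κ] [DecidableEq κ] [Fintype X] [Fintype β]
    [DecidableEq β] (F : X → β) (ψ : κ → X → ℝ) (h : (κ → β) → ℝ) :
    ∑ t : κ → X, h (fun k => F (t k)) * ∏ k, ψ k (t k)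
      = ∑ s : κ → β, h s * ∏ k, ∑ x, (if F x = s k then 1 else 0) * ψ k x := by
  have e : ∀ s : κ → β, ∏ k, ∑ x, (if F x = s k then (1:ℝ) else 0) * ψ k x
      = ∑ t : κ → X, ∏ k, (if F (t k) = s k then (1:ℝ) else 0) * ψ k (t k) := fun s =>
    (sum_prod_pi (fun k x => (if F x = s k then (1:ℝ) else 0) * ψ k x)).symm
  simp only [e, Finset.mul_sum]
  rw [Finset.sum_comm]
  refine Finset.sum_congr rfl fun t _ => ?_
  rw [Finset.sum_eq_single (fun k => F (t k))]
  · simp
  · intro s _ hs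
    obtain ⟨k, hk⟩ := Function.ne_iff.mp hs
    rw [Finset.prod_eq_zero (Finset.mem_univ k) (by simp [Ne.symm hk]), mul_zero]
  · simp

end sums

section products
variable {α : Type} [Fintype α]

lemma BLow.sumProd {κ₁ κ₂ : Type} [Fintype κ₁] [DecidableEq κ₁] [Fintype κ₂] [DecidableEq κ₂]
    {D₁ D₂ : ℕ} {h₁ : (κ₁ → α) → ℝ} {h₂ : (κ₂ → α) → ℝ} (H₁ : BLow D₁ h₁) (H₂ : BLow D₂ h₂) :
    BLow (D₁ + D₂) (fun s : κ₁ ⊕ κ₂ → α =>
      h₁ (fun k => s (Sum.inl k)) * h₂ (fun k => s (Sum.inr k))) := by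
  intro φ T hT h0
  have e := sum_sumPi (α := α) (fun (s₁ : κ₁ → α) (s₂ : κ₂ → α) =>
    (h₁ s₁ * ∏ k, φ (Sum.inl k) (s₁ k)) * (h₂ s₂ * ∏ k, φ (Sum.inr k) (s₂ k)))
  rw [← Finset.sum_mul_sum] at e
  have e2 : ∑ s : κ₁ ⊕ κ₂ → α, h₁ (fun k => s (Sum.inl k)) * h₂ (fun k => s (Sum.inr k))
      * ∏ k, φ k (s k) = (∑ s₁, h₁ s₁ * ∏ k, φ (Sum.inl k) (s₁ k)) *
        ∑ s₂, h₂ s₂ * ∏ k, φ (Sum.inr k) (s₂ k) := by
    rw [← e]
    refine Finset.sum_congr rfl fun s _ => ?_
    rw [Fintype.prod_sum_type]; ring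
  rw [e2]
  have hc := Finset.card_toLeft_add_card_toRight (u := T)
  by_cases h1 : D₁ < T.toLeft.card
  · rw [H₁ (fun k => φ (Sum.inl k)) T.toLeft h1 (fun k hk => h0 _ (by simpa using hk)), zero_mul]
  · rw [H₂ (fun k => φ (Sum.inr k)) T.toRight (by omega)
      (fun k hk => h0 _ (by simpa using hk)), mul_zero]

lemma BLow.prodPi {J κ : Type} [Fintype J] [DecidableEq J] [Fintype κ] [DecidableEq κ]
    (D : J → ℕ) (h : J → (κ → α) → ℝ) (H : ∀ j, BLow (D j) (h j)) :
    BLow (∑ j, D j) (fun s : J × κ → α => ∏ j, h j (fun k => s (j, k))) := by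
  intro φ T hT h0
  have e := sum_prodPi (α := α) (fun t : J → κ → α =>
    ∏ j, (h j (t j) * ∏ k, φ (j, k) (t j k)))
  rw [sum_prod_pi (fun j (x : κ → α) => h j x * ∏ k, φ (j, k) (x k))] at e
  have e2 : ∑ s : J × κ → α, (∏ j, h j (fun k => s (j, k))) * ∏ k, φ k (s k)
      = ∏ j, ∑ x : κ → α, h j x * ∏ k, φ (j, k) (x k) := by
    rw [← e]
    refine Finset.sum_congr rfl fun s _ => ?_
    rw [Fintype.prod_prod_type, Finset.prod_mul_distrib]
  rw [e2]
  rw [card_eq_sum_fiber] at hT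
  obtain ⟨j, _, hj⟩ := Finset.exists_lt_of_sum_lt hT
  exact Finset.prod_eq_zero (Finset.mem_univ j)
    (H j (fun k => φ (j, k)) _ hj (fun k hk => h0 _ (by simpa using hk)))

lemma BLow.comp {κ ι β : Type} [Fintype κ] [DecidableEq κ] [Fintype ι] [DecidableEq ι]
    [Fintype β] {d D : ℕ} (F : (ι → α) → β) (hF : ∀ g : β → ℝ, BLow d (fun x => g (F x)))
    {h : (κ → β) → ℝ} (H : BLow D h) :
    BLow (D * d) (fun x : κ × ι → α => h (fun k => F (fun i => x (k, i)))) := by
  classical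
  intro φ T hT h0
  have e := sum_prodPi (α := α) (fun t : κ → ι → α =>
    h (fun k => F (t k)) * ∏ k, ∏ i, φ (k, i) (t k i))
  rw [sum_push F (fun k (x : ι → α) => ∏ i, φ (k, i) (x i)) h] at e
  have e2 : ∑ s : κ × ι → α, h (fun k => F (fun i => s (k, i))) * ∏ k, φ k (s k)
      = ∑ s : κ → β, h s * ∏ k, ∑ x : ι → α,
        (if F x = s k then 1 else 0) * ∏ i, φ (k, i) (x i) := by
    rw [← e]
    refine Finset.sum_congr rfl fun s _ => ?_
    rw [Fintype.prod_prod_type]
  rw [e2]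
  rw [card_eq_sum_fiber] at hT
  by_cases h1 : ∃ k, d < (Finset.univ.filter (fun i => (k, i) ∈ T)).card
  · obtain ⟨k, hk⟩ := h1
    refine Finset.sum_eq_zero fun s _ => ?_
    rw [Finset.prod_eq_zero (Finset.mem_univ k), mul_zero]
    exact hF (fun b => if b = s k then 1 else 0) (fun i => φ (k, i)) _ hk
      (fun i hi => h0 _ (by simpa using hi))
  · push Not at h1
    refine H (fun k b => ∑ x : ι → α, (if F x = b then 1 else 0) * ∏ i, φ (k, i) (x i))
      (Finset.univ.filter (fun k => ∃ i, (k, i) ∈ T)) ?_ ?_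
    · by_contra hc
      push Not at hc
      have : ∑ k, (Finset.univ.filter (fun i => (k, i) ∈ T)).card
          ≤ ∑ k ∈ Finset.univ.filter (fun k => ∃ i, (k, i) ∈ T), d := by
        rw [Finset.sum_filter]
        refine Finset.sum_le_sum fun k _ => ?_
        split_ifs with hk
        · exact h1 k
        · push Not at hk
          simp [hk]
      rw [Finset.sum_const, smul_eq_mul] at this
      have := Nat.mul_le_mul_right d hc
      omega
    · intro k hk
      obtain ⟨i, hi⟩ : ∃ i, (k, i) ∈ T := by simpa using hk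
      rw [Finset.sum_comm]
      simp only [ite_mul, one_mul, zero_mul, Finset.sum_ite_eq, Finset.mem_univ, if_true]
      rw [sum_prod_pi (fun i a => φ (k, i) a)]
      exact Finset.prod_eq_zero (Finset.mem_univ i) (h0 _ hi)

/-- the determinant of the cell-membership matrix has block degree `r - 1`. -/
lemma BLow.det {C : Type} [Fintype C] [DecidableEq C] [Nonempty C] (A : α → C) :
    BLow (Fintype.card C - 1) (fun u : C → α =>
      ∑ π : Equiv.Perm C, ((Equiv.Perm.sign π : ℤ) : ℝ) *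
        ∏ i, (if A (u i) = π i then (1:ℝ) else 0)) := by
  intro φ T hT h0
  have hT' : T = Finset.univ := by
    apply Finset.eq_univ_of_card
    have := Finset.card_le_univ T
    have : 0 < Fintype.card C := Fintype.card_pos
    omega
  subst hT'
  simp only [Finset.sum_mul]
  rw [Finset.sum_comm]
  let M : Matrix C C ℝ := Matrix.of fun l i => ∑ a, (if A a = l then (1:ℝ) else 0) * φ i a
  have e : ∀ π : Equiv.Perm C, ∑ u : C → α, ((Equiv.Perm.sign π : ℤ) : ℝ) *
        (∏ i, (if A (u i) = π i then (1:ℝ) else 0)) * ∏ k, φ k (u k)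
      = ((Equiv.Perm.sign π : ℤ) : ℝ) * ∏ i, M (π i) i := by
    intro π
    simp only [mul_assoc, ← Finset.mul_sum, ← Finset.prod_mul_distrib]
    rw [sum_prod_pi (fun i a => (if A a = π i then (1:ℝ) else 0) * φ i a)]
    rfl
  simp only [e]
  rw [← Matrix.det_apply', ← Matrix.exists_vecMul_eq_zero_iff]
  refine ⟨fun _ => 1, ?_, ?_⟩
  · intro h
    have := congrFun h (Classical.arbitrary C)
    simp at this
  · funext i
    simp only [Matrix.vecMul, dotProduct, one_mul, M, Matrix.of_apply, Pi.zero_apply]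
    rw [Finset.sum_comm]
    simp only [ite_mul, one_mul, zero_mul, Finset.sum_ite_eq, Finset.mem_univ, if_true]
    exact h0 i (Finset.mem_univ i)

end products

end Crest.Agent.R63
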