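import Crest.Agent.R63.GS1

/-! Row 63 (S0085), part 2: finite expectations, product weights and realisations. -/

set_option autoImplicit false
open Finset

namespace Crest.Agent.R63

/-- weighted sum -/
def Ex {α : Type} [Fintype α] (w f : α → ℝ) : ℝ := ∑ a, w a * f a

/-- product weight -/
def pw {κ α : Type} [Fintype κ] (w : α → ℝ) (s : κ → α) : ℝ := ∏ k, w (s k)

/-- sum over the blocks -/
def tot {κ α : Type} [Fintype κ] (Y : α → ℝ) (s : κ → α) : ℝ := ∑ k, Y (s k)

def IsProb {α : Type} [Fintype α] (w : α → ℝ) : Prop := (∀ a, 0 ≤ w a) ∧ ∑ a, w a = 1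

section ex
variable {α : Type} [Fintype α]

lemma Ex_add (w f g : α → ℝ) : Ex w (fun a => f a + g a) = Ex w f + Ex w g := by
  simp [Ex, mul_add, Finset.sum_add_distrib]

lemma Ex_sub (w f g : α → ℝ) : Ex w (fun a => f a - g a) = Ex w f - Ex w g := by
  simp [Ex, mul_sub, Finset.sum_sub_distrib]

lemma Ex_const_mul (w : α → ℝ) (c : ℝ) (f : α → ℝ) : Ex w (fun a => c * f a) = c * Ex w f := by
  simp only [Ex, Finset.mul_sum]; exact Finset.sum_congr rfl fun _ _ => by ring

lemma Ex_mul_const (w : α → ℝ) (c : ℝ) (f : α → ℝ) : Ex w (fun a => f a * c) = Ex w f * c := by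
  simp only [Ex, Finset.sum_mul]; exact Finset.sum_congr rfl fun _ _ => by ring

lemma Ex_const {w : α → ℝ} (hw : IsProb w) (c : ℝ) : Ex w (fun _ => c) = c := by
  simp [Ex, ← Finset.sum_mul, hw.2]

lemma Ex_sum {J : Type} (w : α → ℝ) (U : Finset J) (f : J → α → ℝ) :
    Ex w (fun a => ∑ j ∈ U, f j a) = ∑ j ∈ U, Ex w (f j) := by
  simp only [Ex, Finset.mul_sum]; exact Finset.sum_comm

lemma Ex_congr (w : α → ℝ) {f g : α → ℝ} (h : ∀ a, f a = g a) : Ex w f = Ex w g := by
  have : f = g := funext h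
  rw [this]

lemma Ex_mono {w : α → ℝ} (hw : IsProb w) {f g : α → ℝ} (h : ∀ a, f a ≤ g a) :
    Ex w f ≤ Ex w g :=
  Finset.sum_le_sum fun a _ => mul_le_mul_of_nonneg_left (h a) (hw.1 a)

lemma Ex_nonneg {w : α → ℝ} (hw : IsProb w) {f : α → ℝ} (h : ∀ a, 0 ≤ f a) : 0 ≤ Ex w f :=
  Finset.sum_nonneg fun a _ => mul_nonneg (hw.1 a) (h a)

lemma Ex_comm {β : Type} [Fintype β] (w : α → ℝ) (v : β → ℝ) (f : α → β → ℝ) :
    Ex w (fun a => Ex v (fun b => f a b)) = Ex v (fun b => Ex w (fun a => f a b)) := by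
  simp only [Ex, Finset.mul_sum]
  rw [Finset.sum_comm]
  exact Finset.sum_congr rfl fun _ _ => Finset.sum_congr rfl fun _ _ => by ring

variable {κ : Type} [Fintype κ] [DecidableEq κ]

lemma IsProb.pw {w : α → ℝ} (hw : IsProb w) : IsProb (pw (κ := κ) w) := by
  refine ⟨fun s => Finset.prod_nonneg fun k _ => hw.1 _, ?_⟩
  unfold R63.pw
  rw [sum_prod_pi (fun _ a => w a)]
  simp [hw.2]

lemma Ex_pw_prod (w : α → ℝ) (g : κ → α → ℝ) :
    Ex (pw w) (fun s : κ → α => ∏ k, g k (s k)) = ∏ k, Ex w (g k) := by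
  unfold Ex R63.pw
  rw [← sum_prod_pi (fun k a => w a * g k a)]
  exact Finset.sum_congr rfl fun s _ => by rw [Finset.prod_mul_distrib]

lemma Ex_sumPi {κ₁ κ₂ : Type} [Fintype κ₁] [DecidableEq κ₁] [Fintype κ₂] [DecidableEq κ₂]
    (w : α → ℝ) (f : (κ₁ → α) → (κ₂ → α) → ℝ) :
    Ex (pw w) (fun s : κ₁ ⊕ κ₂ → α => f (fun k => s (Sum.inl k)) (fun k => s (Sum.inr k)))
      = Ex (pw w) (fun s₁ => Ex (pw w) (fun s₂ => f s₁ s₂)) := by
  unfold Ex
  have e := sum_sumPi (α := α) (fun (s₁ : κ₁ → α) (s₂ : κ₂ → α) =>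
    pw w s₁ * (pw w s₂ * f s₁ s₂))
  simp only [Finset.mul_sum]
  rw [← e]
  refine Finset.sum_congr rfl fun s _ => ?_
  unfold pw
  rw [Fintype.prod_sum_type]; ring

lemma Ex_prodPi {J : Type} [Fintype J] [DecidableEq J] (w : α → ℝ) (f : (J → κ → α) → ℝ) :
    Ex (pw w) (fun s : J × κ → α => f (fun j k => s (j, k))) = Ex (pw (pw w)) f := by
  unfold Ex
  rw [← sum_prodPi (fun t : J → κ → α => pw (pw w) t * f t)]
  refine Finset.sum_congr rfl fun s _ => ?_
  unfold pw
  rw [Fintype.prod_prod_type]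

omit [Fintype α] [DecidableEq κ] in
lemma tot_prodPi {J : Type} [Fintype J] (Y : α → ℝ) (s : J × κ → α) :
    tot Y s = tot (tot Y) (fun j k => s (j, k)) := by
  unfold tot
  rw [Fintype.sum_prod_type]

omit [Fintype α] in
lemma tot_sumPi {κ₁ κ₂ : Type} [Fintype κ₁] [Fintype κ₂] (Y : α → ℝ) (s : κ₁ ⊕ κ₂ → α) :
    tot Y s = tot Y (fun k => s (Sum.inl k)) + tot Y (fun k => s (Sum.inr k)) := by
  unfold tot
  rw [Fintype.sum_sum_type]

end ex

/-- `(β, w, Y)` is realised over the block `(α, u, y)` with block degree `d`. -/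
def Rel {α β : Type} [Fintype α] [Fintype β] (u y : α → ℝ) (w Y : β → ℝ) (d : ℕ) : Prop :=
  ∃ (ι : Type) (_ : Fintype ι) (_ : DecidableEq ι) (F : (ι → α) → β),
    (∀ g : β → ℝ, BLow d (fun x => g (F x))) ∧
    (∀ g : β → ℝ, Ex (pw u) (fun x => g (F x)) = Ex w g) ∧
    (∀ g : β → ℝ, Ex (pw u) (fun x => tot y x * g (F x)) = Ex w (fun b => Y b * g b))

section rel
variable {α β γ : Type} [Fintype α] [Fintype β] [Fintype γ]

lemma Rel.pow (κ : Type) [Fintype κ] [DecidableEq κ] (w Y : α → ℝ) :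
    Rel w Y (pw (κ := κ) w) (tot Y) (Fintype.card κ) :=
  ⟨κ, inferInstance, inferInstance, id, fun _ => BLow.full _, fun _ => rfl, fun _ => rfl⟩

lemma Rel.scale {u y : α → ℝ} {w Y : β → ℝ} {d : ℕ} (H : Rel u y w Y d) (c : ℝ) :
    Rel u (fun a => c * y a) w (fun b => c * Y b) d := by
  obtain ⟨ι, _, _, F, h1, h2, h3⟩ := H
  refine ⟨ι, inferInstance, inferInstance, F, h1, h2, fun g => ?_⟩
  have e : ∀ x : ι → α, tot (fun a => c * y a) x * g (F x) = c * (tot y x * g (F x)) := by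
    intro x; unfold tot; rw [← Finset.mul_sum]; ring
  rw [Ex_congr _ e, Ex_const_mul, h3, ← Ex_const_mul]
  exact Ex_congr _ fun b => by ring

/-- push lemma for expectations with one extra factor in each coordinate -/
lemma Ex_push {κ X : Type} [Fintype κ] [DecidableEq κ] [Fintype X] (F : X → β) (v : X → ℝ)
    (w : β → ℝ) (ψ : κ → X → ℝ) (Ψ : κ → β → ℝ)
    (hψ : ∀ k (g : β → ℝ), Ex v (fun x => ψ k x * g (F x)) = Ex w (fun b => Ψ k b * g b))
    (h : (κ → β) → ℝ) :
    Ex (pw v) (fun t : κ → X => (∏ k, ψ k (t k)) * h (fun k => F (t k)))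
      = Ex (pw w) (fun s : κ → β => (∏ k, Ψ k (s k)) * h s) := by
  classical
  have e := sum_push F (fun k x => v x * ψ k x) h
  have e2 : ∀ k b, ∑ x, (if F x = b then (1:ℝ) else 0) * (v x * ψ k x) = w b * Ψ k b := by
    intro k b
    have := hψ k (fun b' => if b' = b then 1 else 0)
    unfold Ex at this
    simp only [mul_ite, mul_one, mul_zero, Finset.sum_ite_eq', Finset.mem_univ, if_true] at this
    rw [← this]
    exact Finset.sum_congr rfl fun x _ => by split_ifs <;> simp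
  simp only [e2] at e
  unfold Ex pw
  calc _ = ∑ t : κ → X, h (fun k => F (t k)) * ∏ k, (v (t k) * ψ k (t k)) :=
        Finset.sum_congr rfl fun t _ => by rw [Finset.prod_mul_distrib]; ring
    _ = _ := e
    _ = _ := Finset.sum_congr rfl fun t _ => by rw [Finset.prod_mul_distrib]; ring

lemma Rel.trans {u y : α → ℝ} {w Y : β → ℝ} {v Z : γ → ℝ} {d D : ℕ}
    (H : Rel u y w Y d) (H' : Rel w Y v Z D) : Rel u y v Z (D * d) := by
  obtain ⟨ι, _, _, F, h1, h2, h3⟩ := H
  obtain ⟨κ, _, _, G, k1, k2, k3⟩ := H'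
  refine ⟨κ × ι, inferInstance, inferInstance,
    fun x => G (fun k => F (fun i => x (k, i))), fun g => BLow.comp F h1 (k1 g),
    fun g => ?_, fun g => ?_⟩
  · rw [Ex_prodPi u (fun t : κ → ι → α => g (G (fun k => F (t k)))), ← k2 g]
    have := Ex_push (κ := κ) F (pw u) w (fun _ _ => 1) (fun _ _ => 1)
      (fun _ g => by simpa using h2 g) (fun s => g (G s))
    simpa using this
  · have e : ∀ x : κ × ι → α, tot y x * g (G (fun k => F (fun i => x (k, i))))
        = (fun t : κ → ι → α => tot (tot y) t * g (G (fun k => F (t k))))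
          (fun k i => x (k, i)) := by
      intro x; rw [tot_prodPi]
    refine ((Ex_congr _ e).trans (Ex_prodPi u
      (fun t : κ → ι → α => tot (tot y) t * g (G (fun k => F (t k)))))).trans ?_
    rw [← k3 g]
    have e1 : ∀ t : κ → ι → α, tot (tot y) t * g (G (fun k => F (t k)))
        = ∑ k, tot y (t k) * g (G (fun k => F (t k))) := fun t => Finset.sum_mul _ _ _
    have e2 : ∀ t : κ → β, tot Y t * g (G t) = ∑ k, Y (t k) * g (G t) :=
      fun t => Finset.sum_mul _ _ _
    rw [Ex_congr _ e1, Ex_congr _ e2, Ex_sum, Ex_sum]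
    refine Finset.sum_congr rfl fun k _ => ?_
    have := Ex_push (κ := κ) F (pw u) w (fun j x => if j = k then tot y x else 1)
      (fun j b => if j = k then Y b else 1)
      (fun j g => by
        by_cases hj : j = k
        · simpa [hj] using h3 g
        · simpa [hj] using h2 g) (fun s => g (G s))
    simpa [Finset.prod_ite_eq'] using this

lemma Rel.prod {u y : α → ℝ} {w Y : β → ℝ} {v Z : γ → ℝ} {d D : ℕ}
    (H : Rel u y w Y d) (H' : Rel u y v Z D) :
    Rel u y (fun p : β × γ => w p.1 * v p.2) (fun p => Y p.1 + Z p.2) (d + D) := by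
  classical
  obtain ⟨ι, _, _, F, h1, h2, h3⟩ := H
  obtain ⟨κ, _, _, G, k1, k2, k3⟩ := H'
  have hE : ∀ f : β × γ → ℝ, Ex (fun p : β × γ => w p.1 * v p.2) f
      = Ex w (fun b => Ex v (fun c => f (b, c))) := by
    intro f
    unfold Ex
    rw [Fintype.sum_prod_type]
    simp only [Finset.mul_sum, mul_assoc]
  refine ⟨ι ⊕ κ, inferInstance, inferInstance,
    fun x => (F (fun i => x (Sum.inl i)), G (fun k => x (Sum.inr k))), fun g => ?_,
    fun g => ?_, fun g => ?_⟩
  · have := BLow.sum (D := d + D) Finset.univ (fun (b : β) (x : ι ⊕ κ → α) =>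
      (if F (fun i => x (Sum.inl i)) = b then (1:ℝ) else 0) * g (b, G (fun k => x (Sum.inr k))))
      (fun b _ => (h1 (fun b' => if b' = b then (1:ℝ) else 0)).sumProd (k1 (fun c => g (b, c))))
    exact this.congr fun x => by simp
  · rw [Ex_sumPi u (fun s₁ s₂ => g (F s₁, G s₂)), hE]
    rw [← h2 (fun b => Ex v (fun c => g (b, c)))]
    exact Ex_congr _ fun s₁ => k2 (fun c => g (F s₁, c))
  · have e : ∀ x : ι ⊕ κ → α, tot y x * g (F (fun i => x (Sum.inl i)), G (fun k => x (Sum.inr k)))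
        = (fun s₁ s₂ => tot y s₁ * g (F s₁, G s₂) + tot y s₂ * g (F s₁, G s₂))
          (fun i => x (Sum.inl i)) (fun k => x (Sum.inr k)) := by
      intro x; rw [tot_sumPi]; ring
    refine ((Ex_congr _ e).trans (Ex_sumPi u
      (fun s₁ s₂ => tot y s₁ * g (F s₁, G s₂) + tot y s₂ * g (F s₁, G s₂)))).trans ?_
    rw [hE]
    simp only [Ex_add, Ex_const_mul, add_mul]
    rw [← h3 (fun b => Ex v (fun c => g (b, c))), ← h2 (fun b => Ex v (fun c => Z c * g (b, c)))]
    congr 1
    · exact Ex_congr _ fun s₁ => by rw [k2 (fun c => g (F s₁, c))]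
    · exact Ex_congr _ fun s₁ => k3 (fun c => g (F s₁, c))

lemma Rel.neg {u y : α → ℝ} {w Y : β → ℝ} {d : ℕ} (H : Rel u y w Y d) (τ : α ≃ α)
    (hu : ∀ a, u (τ a) = u a) (hy : ∀ a, y (τ a) = - y a) :
    Rel u y w (fun b => - Y b) d := by
  obtain ⟨ι, _, _, F, h1, h2, h3⟩ := H
  have hE : ∀ f : (ι → α) → ℝ, Ex (pw u) (fun x => f (fun i => τ (x i))) = Ex (pw u) f := by
    intro f
    unfold Ex
    refine Fintype.sum_equiv (Equiv.piCongrRight fun _ : ι => τ) _ _ fun x => ?_
    have : (Equiv.piCongrRight fun _ : ι => τ) x = fun i => τ (x i) := rfl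
    rw [this]; simp [pw, hu]
  refine ⟨ι, inferInstance, inferInstance, fun x => F (fun i => τ (x i)), fun g => ?_,
    fun g => ?_, fun g => ?_⟩
  · intro φ T hT h0
    have := h1 g (fun k a => φ k (τ.symm a)) T hT (fun k hk => by
      rw [← h0 k hk]; exact Fintype.sum_equiv τ.symm _ _ fun _ => rfl)
    rw [← this]
    refine Fintype.sum_equiv (Equiv.piCongrRight fun _ : ι => τ) _ _ fun x => ?_
    have : (Equiv.piCongrRight fun _ : ι => τ) x = fun i => τ (x i) := rfl
    rw [this]; simp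
  · rw [hE (fun x => g (F x)), h2]
  · have e : ∀ x : ι → α, tot y x * g (F (fun i => τ (x i)))
        = (fun x => (-1) * (tot y x * g (F x))) (fun i => τ (x i)) := by
      intro x; simp [tot, hy]
    refine ((Ex_congr _ e).trans (hE (fun x => (-1) * (tot y x * g (F x))))).trans ?_
    rw [Ex_const_mul, h3, ← Ex_const_mul]
    exact Ex_congr _ fun b => by ring

/-- coarsening: the new `Y` is the conditional expectation -/
lemma Rel.coarse {κ : Type} [Fintype κ] [DecidableEq κ] {w Y : α → ℝ} (hw : IsProb w)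
    (G : (κ → α) → γ) {D : ℕ} (hG : ∀ g : γ → ℝ, BLow D (fun x => g (G x))) (ψ : γ → ℝ) :
    ∃ v Z : γ → ℝ, IsProb v ∧ Rel w Y v Z D ∧
      Ex (pw w) (fun s : κ → α => tot Y s ^ 2) - Ex (pw w) (fun s => (tot Y s - ψ (G s)) ^ 2)
        ≤ Ex v (fun c => Z c ^ 2) := by
  classical
  have hW : IsProb (pw (κ := κ) w) := hw.pw
  let v : γ → ℝ := fun c => Ex (pw w) (fun s => if G s = c then 1 else 0)
  let m : γ → ℝ := fun c => Ex (pw w) (fun s => tot Y s * if G s = c then 1 else 0)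
  have h2 : ∀ g : γ → ℝ, Ex (pw w) (fun x => g (G x)) = Ex v g := by
    intro g
    have : Ex v g = ∑ c, Ex (pw w) (fun s => (if G s = c then 1 else 0) * g c) := by
      simp only [Ex_mul_const]; rfl
    rw [this, ← Ex_sum]
    exact Ex_congr _ fun s => by simp
  have hm : ∀ c, v c * (m c / v c) = m c := by
    intro c
    by_cases hc : v c = 0
    · have h0 := (Finset.sum_eq_zero_iff_of_nonneg (fun s _ => mul_nonneg (hW.1 s)
        (by split_ifs <;> norm_num))).mp hc
      have : m c = 0 := Finset.sum_eq_zero fun s hs => by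
        have := h0 s hs
        calc _ = tot Y s * (pw w s * if G s = c then 1 else 0) := by ring
          _ = 0 := by rw [this, mul_zero]
      rw [this]; simp
    · field_simp
  have h3 : ∀ g : γ → ℝ, Ex (pw w) (fun x => tot Y x * g (G x))
      = Ex v (fun c => m c / v c * g c) := by
    intro g
    have : Ex v (fun c => m c / v c * g c)
        = ∑ c, Ex (pw w) (fun s => (tot Y s * if G s = c then 1 else 0) * g c) := by
      simp only [Ex_mul_const]
      exact Finset.sum_congr rfl fun c _ => by rw [← mul_assoc, hm]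
    rw [this, ← Ex_sum]
    exact Ex_congr _ fun s => by simp
  have hv : IsProb v := by
    refine ⟨fun c => Ex_nonneg hW fun s => by split_ifs <;> norm_num, ?_⟩
    have := h2 (fun _ => 1)
    rw [Ex_const hW] at this
    rw [this]; simp [Ex]
  refine ⟨v, fun c => m c / v c, hv, ⟨κ, inferInstance, inferInstance, G, hG, h2, h3⟩, ?_⟩
  have e : ∀ s : κ → α, (tot Y s - ψ (G s)) ^ 2
      = tot Y s ^ 2 + ((-2) * (tot Y s * ψ (G s)) + ψ (G s) ^ 2) := fun s => by ring
  rw [Ex_congr _ e, Ex_add, Ex_add, Ex_const_mul, h3 ψ, h2 (fun c => ψ c ^ 2)]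
  have := Ex_nonneg hv (f := fun c => (m c / v c - ψ c) ^ 2) (fun c => sq_nonneg _)
  have e2 : ∀ c, (m c / v c - ψ c) ^ 2
      = (m c / v c) ^ 2 + ((-2) * (m c / v c * ψ c) + ψ c ^ 2) := fun c => by ring
  rw [Ex_congr _ e2, Ex_add, Ex_add, Ex_const_mul] at this
  linarith

end rel

end Crest.Agent.R63
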