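import Crest.Agent.R63.GS2

/-! Row 63 (S0085), part 3: moments of sums of independent blocks. -/

set_option autoImplicit false
open Finset

namespace Crest.Agent.R63

variable {α : Type} [Fintype α]

lemma Ex_cons {n : ℕ} (w : α → ℝ) (f : (Fin (n + 1) → α) → ℝ) :
    Ex (pw w) f = Ex w (fun a => Ex (pw w) (fun s : Fin n → α => f (Fin.cons a s))) := by
  unfold Ex
  simp only [Finset.mul_sum]
  rw [← Fintype.sum_prod_type' (fun (a : α) (s : Fin n → α) =>
    w a * (pw w s * f (Fin.cons a s)))]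
  symm
  refine Fintype.sum_equiv (Fin.consEquiv fun _ => α) _ _ fun p => ?_
  have : (Fin.consEquiv fun _ => α) p = Fin.cons p.1 p.2 := rfl
  rw [this]
  simp [pw, Fin.prod_univ_succ, mul_assoc]

omit [Fintype α] in
lemma tot_cons {n : ℕ} (Y : α → ℝ) (a : α) (s : Fin n → α) :
    tot Y (Fin.cons a s : Fin (n + 1) → α) = tot Y s + Y a := by
  simp [tot, Fin.sum_univ_succ, add_comm]

lemma mom1 {w : α → ℝ} (hw : IsProb w) (a : α → ℝ) (ha : Ex w a = 0) (n : ℕ) :
    Ex (pw w) (fun s : Fin n → α => tot a s) = 0 := by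
  induction n with
  | zero => simp [tot, Ex]
  | succ n ih =>
    rw [Ex_cons]
    simp only [tot_cons, Ex_add, ih, Ex_const hw.pw, zero_add]
    exact ha

lemma mom2 {w : α → ℝ} (hw : IsProb w) (a y : α → ℝ) (ha : Ex w a = 0) (hy : Ex w y = 0)
    (n : ℕ) : Ex (pw w) (fun s : Fin n → α => tot a s * tot y s)
      = n * Ex w (fun x => a x * y x) := by
  induction n with
  | zero => simp [tot, Ex]
  | succ n ih =>
    rw [Ex_cons]
    have e : ∀ (x : α) (s : Fin n → α), (tot a s + a x) * (tot y s + y x)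
        = tot a s * tot y s + (y x * tot a s + (a x * tot y s + a x * y x)) := by
      intro x s; ring
    simp only [tot_cons, e, Ex_add, Ex_const_mul, ih, Ex_const hw.pw, mom1 hw a ha,
      mom1 hw y hy, Ex_const hw, mul_zero, zero_add]
    push_cast; ring

lemma mom3 {w : α → ℝ} (hw : IsProb w) (a y : α → ℝ) (ha : Ex w a = 0) (hy : Ex w y = 0)
    (n : ℕ) : Ex (pw w) (fun s : Fin n → α => tot a s ^ 2 * tot y s)
      = n * Ex w (fun x => a x ^ 2 * y x) := by
  induction n with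
  | zero => simp [tot, Ex]
  | succ n ih =>
    rw [Ex_cons]
    have e : ∀ (x : α) (s : Fin n → α), (tot a s + a x) ^ 2 * (tot y s + y x)
        = tot a s ^ 2 * tot y s + (y x * (tot a s * tot a s) + (2 * (a x * (tot a s * tot y s))
          + ((2 * a x * y x) * tot a s + (a x ^ 2 * tot y s + a x ^ 2 * y x)))) := by
      intro x s; ring
    simp only [tot_cons, e, Ex_add, Ex_const_mul, Ex_mul_const, ih, Ex_const hw.pw, mom1 hw a ha,
      mom1 hw y hy, mom2 hw a a ha ha, mom2 hw a y ha hy, Ex_const hw, mul_zero, zero_add]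
    have h1 : Ex w (fun x => y x) = 0 := hy
    have h2 : Ex w (fun x => a x) = 0 := ha
    rw [h1, h2]
    push_cast; ring

lemma mom4 {w : α → ℝ} (hw : IsProb w) (a y : α → ℝ) (ha : Ex w a = 0) (hy : Ex w y = 0)
    (n : ℕ) : Ex (pw w) (fun s : Fin n → α => tot a s ^ 2 * tot y s ^ 2)
      = n * Ex w (fun x => a x ^ 2 * y x ^ 2) + n * (n - 1) *
        (Ex w (fun x => a x * a x) * Ex w (fun x => y x * y x)
          + 2 * Ex w (fun x => a x * y x) ^ 2) := by
  induction n with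
  | zero => simp [tot, Ex]
  | succ n ih =>
    rw [Ex_cons]
    have e : ∀ (x : α) (s : Fin n → α), (tot a s + a x) ^ 2 * (tot y s + y x) ^ 2
        = tot a s ^ 2 * tot y s ^ 2 + (2 * (y x * (tot a s ^ 2 * tot y s))
          + ((y x * y x) * (tot a s * tot a s) + (2 * (a x * (tot y s ^ 2 * tot a s))
          + (4 * ((a x * y x) * (tot a s * tot y s)) + ((2 * a x * y x ^ 2) * tot a s
          + ((a x * a x) * (tot y s * tot y s) + ((2 * a x ^ 2 * y x) * tot y s
          + a x ^ 2 * y x ^ 2))))))) := by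
      intro x s; ring
    simp only [tot_cons, e, Ex_add, Ex_const_mul, Ex_mul_const, ih, Ex_const hw.pw, mom1 hw a ha,
      mom1 hw y hy, mom2 hw a a ha ha, mom2 hw a y ha hy, mom2 hw y y hy hy,
      Ex_const hw, mul_zero, zero_add]
    have h1 : Ex w (fun x => y x) = 0 := hy
    have h2 : Ex w (fun x => a x) = 0 := ha
    rw [h1, h2]
    push_cast; ring

section tilted
variable {κ : Type} [Fintype κ] [DecidableEq κ]

lemma tilt_lin (w : α → ℝ) (g y : κ → α → ℝ) (h0 : ∀ k, Ex w (fun x => g k x * y k x) = 0) :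
    Ex (pw w) (fun s : κ → α => (∏ k, g k (s k)) * ∑ i, y i (s i)) = 0 := by
  simp only [Finset.mul_sum]
  rw [Ex_sum]
  refine Finset.sum_eq_zero fun i _ => ?_
  have e : ∀ s : κ → α, (∏ k, g k (s k)) * y i (s i)
      = ∏ k, (g k (s k) * if k = i then y k (s k) else 1) := by
    intro s; rw [Finset.prod_mul_distrib]; simp
  rw [Ex_congr _ e, Ex_pw_prod w (fun k x => g k x * if k = i then y k x else 1)]
  exact Finset.prod_eq_zero (Finset.mem_univ i) (by simpa using h0 i)

lemma tilt_quad (w : α → ℝ) (g y : κ → α → ℝ) (h0 : ∀ k, Ex w (fun x => g k x * y k x) = 0) :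
    Ex (pw w) (fun s : κ → α => (∏ k, g k (s k)) * (∑ i, y i (s i)) ^ 2)
      = ∑ i, Ex w (fun x => g i x * y i x ^ 2) * ∏ k ∈ Finset.univ.erase i, Ex w (g k) := by
  have e0 : ∀ s : κ → α, (∏ k, g k (s k)) * (∑ i, y i (s i)) ^ 2
      = ∑ i, ∑ j, (∏ k, g k (s k)) * (y i (s i) * y j (s j)) := by
    intro s
    rw [sq, Finset.sum_mul_sum]
    simp only [Finset.mul_sum]
  rw [Ex_congr _ e0, Ex_sum]
  refine Finset.sum_congr rfl fun i _ => ?_
  rw [Ex_sum]
  have e : ∀ j, ∀ s : κ → α, (∏ k, g k (s k)) * (y i (s i) * y j (s j))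
      = ∏ k, (g k (s k) * (if k = i then y k (s k) else 1)
        * (if k = j then y k (s k) else 1)) := by
    intro j s; rw [Finset.prod_mul_distrib, Finset.prod_mul_distrib]; simp [mul_assoc]
  have e2 : ∀ j, Ex (pw w) (fun s : κ → α => (∏ k, g k (s k)) * (y i (s i) * y j (s j)))
      = ∏ k, Ex w (fun x => g k x * (if k = i then y k x else 1)
        * (if k = j then y k x else 1)) := fun j =>
    (Ex_congr _ (e j)).trans (Ex_pw_prod w (fun k x => g k x * (if k = i then y k x else 1)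
        * (if k = j then y k x else 1)))
  simp only [e2]
  rw [Finset.sum_eq_single i]
  · rw [← Finset.mul_prod_erase _ _ (Finset.mem_univ i)]
    congr 1
    · simp [mul_assoc, sq]
    · refine Finset.prod_congr rfl fun k hk => ?_
      simp [Finset.ne_of_mem_erase hk]
  · intro j _ hj
    exact Finset.prod_eq_zero (Finset.mem_univ i) (by simpa [Ne.symm hj] using h0 i)
  · simp

end tilted

/-- `|y| ≥ 3/4 y² - y⁴/16` -/
lemma abs_ge_poly (y : ℝ) : 3 / 4 * y ^ 2 - 1 / 16 * y ^ 4 ≤ |y| := by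
  have h2 : y ^ 2 = |y| ^ 2 := (sq_abs y).symm
  have h4 : y ^ 4 = |y| ^ 4 := by
    have : y ^ 4 = (y ^ 2) ^ 2 := by ring
    rw [this, h2]; ring
  rw [h2, h4]
  have h := abs_nonneg y
  set t := |y|
  have : 0 ≤ t * ((t - 2) ^ 2 * (t + 4)) := by positivity
  nlinarith

/-- normalised symmetric block -/
structure Nrm (w Y : α → ℝ) : Prop where
  prob : IsProb w
  sym : ∀ φ : ℝ → ℝ, Ex w (fun a => φ (Y a)) = Ex w (fun a => φ (- Y a))
  two : Ex w (fun a => Y a ^ 2) = 1
  four : Ex w (fun a => Y a ^ 4) ≤ 4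

lemma Nrm.odd {w Y : α → ℝ} (h : Nrm w Y) (φ : ℝ → ℝ) (hφ : ∀ t, φ (-t) = - φ t) :
    Ex w (fun a => φ (Y a)) = 0 := by
  have h1 := h.sym φ
  have h2 : Ex w (fun a => φ (- Y a)) = Ex w (fun a => (-1) * φ (Y a)) :=
    Ex_congr _ fun a => by rw [hφ]; ring
  rw [h2, Ex_const_mul] at h1
  linarith

lemma Nrm.one {w Y : α → ℝ} (h : Nrm w Y) : Ex w Y = 0 := h.odd (fun t => t) (fun _ => rfl)

lemma Nrm.abs {w Y : α → ℝ} (h : Nrm w Y) : 1 / 2 ≤ Ex w (fun a => |Y a|) := by
  have := Ex_mono h.prob (fun a => abs_ge_poly (Y a))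
  rw [Ex_sub, Ex_const_mul, Ex_const_mul, h.two] at this
  linarith [h.four]

end Crest.Agent.R63
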