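import Crest.Agent.R63.GS3

/-! Row 63 (S0085), part 4: the cell lemma. -/

set_option autoImplicit false
open Finset

namespace Crest.Agent.R63

/-- indicator of a cell -/
def ind {X C : Type} [DecidableEq C] (A : X → C) (l : C) (x : X) : ℝ := if A x = l then 1 else 0

lemma ind_nonneg {X C : Type} [DecidableEq C] (A : X → C) (l : C) (x : X) : 0 ≤ ind A l x := by
  unfold ind; split_ifs <;> norm_num

lemma cond_mean {X : Type} [Fintype X] (w g Y : X → ℝ) (hp : 0 < Ex w g) (c : ℝ) :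
    Ex w (fun x => g x * (Y x - Ex w (fun x => g x * Y x) / Ex w g)) = 0 ∧
    Ex w (fun x => g x * (Y x - Ex w (fun x => g x * Y x) / Ex w g) ^ 2)
      ≤ Ex w (fun x => g x * (Y x - c) ^ 2) := by
  set μ := Ex w (fun x => g x * Y x) / Ex w g with hμ
  have h1 : Ex w (fun x => g x * (Y x - μ)) = 0 := by
    have e : ∀ x, g x * (Y x - μ) = g x * Y x - μ * g x := fun x => by ring
    rw [Ex_congr _ e, Ex_sub, Ex_const_mul, hμ]
    have : Ex w (fun a => g a) = Ex w g := rfl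
    rw [this]; field_simp; ring
  refine ⟨h1, ?_⟩
  have e : ∀ x, g x * (Y x - c) ^ 2 = g x * (Y x - μ) ^ 2
      + ((2 * (μ - c)) * (g x * (Y x - μ)) + (μ - c) ^ 2 * g x) := fun x => by ring
  rw [Ex_congr _ e, Ex_add, Ex_add, Ex_const_mul, Ex_const_mul, h1]
  have : 0 ≤ (μ - c) ^ 2 * Ex w (fun a => g a) := mul_nonneg (sq_nonneg _) hp.le
  linarith

/-- raw cells with explicit centres -/
lemma cells_raw (t0 j : ℕ) (ht0 : 1 ≤ t0) (hj : t0 ≤ j) (p0 : ℝ) (hp0 : 0 < p0)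
    (hp1 : p0 ≤ 1 / (4 * t0 * (j:ℝ) ^ 3)) (X : Type) [Fintype X] (w Y : X → ℝ) (hw : IsProb w)
    (h4 : Ex w (fun x => Y x ^ 4) ≤ t0 / 2) :
    ∃ (C : Type) (_ : Fintype C) (_ : DecidableEq C) (A : X → C) (c : C → ℝ),
      Nonempty C ∧ Fintype.card C ≤ 2 * j ^ 5 ∧ (∀ l, p0 ≤ Ex w (ind A l)) ∧
      ∑ l, Ex w (fun x => ind A l x * (Y x - c l) ^ 2) / Ex w (ind A l)
        ≤ (2 + 8 * (t0:ℝ) ^ 2) / j + 32 * t0 * (j:ℝ) ^ 12 * p0 := by
  classical
  have ht0' : (1:ℝ) ≤ t0 := by exact_mod_cast ht0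
  have hj' : (t0:ℝ) ≤ j := by exact_mod_cast hj
  have hj1 : (1:ℝ) ≤ j := ht0'.trans hj'
  have hjpos : (0:ℝ) < j := by linarith
  set m : ℝ := (j:ℝ) ^ 3 with hm
  set t : ℝ := (j:ℝ) ^ 2 with ht
  have hmpos : 0 < m := by positivity
  have htt : (t0:ℝ) ≤ t := by rw [ht]; nlinarith
  let k : X → ℤ := fun x => ⌊m * Y x⌋
  let P : ℤ → ℝ := fun l => Ex w (ind k l)
  let I0 : Finset ℤ := Finset.Ico (-((t0 * j ^ 3 : ℕ) : ℤ)) ((t0 * j ^ 3 : ℕ) : ℤ)
  let I : Finset ℤ := Finset.Ico (-((j ^ 5 : ℕ) : ℤ)) ((j ^ 5 : ℕ) : ℤ)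
  have hI0card : I0.card = 2 * (t0 * j ^ 3) := by
    simp only [I0, Int.card_Ico]; omega
  have hIcard : I.card = 2 * j ^ 5 := by
    simp only [I, Int.card_Ico]; omega
  have hI0 : ∀ x, k x ∈ I0 ↔ -(t0:ℝ) ≤ Y x ∧ Y x < t0 := by
    intro x
    simp only [I0, k, Finset.mem_Ico, Int.le_floor, Int.floor_lt]
    push_cast
    rw [← hm]
    constructor
    · rintro ⟨h1, h2⟩; constructor <;> nlinarith
    · rintro ⟨h1, h2⟩; constructor <;> nlinarith
  have hI : ∀ x, k x ∈ I ↔ -t ≤ Y x ∧ Y x < t := by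
    intro x
    simp only [I, k, Finset.mem_Ico, Int.le_floor, Int.floor_lt]
    push_cast
    have : (j:ℝ) ^ 5 = t * m := by rw [ht, hm]; ring
    rw [this]
    constructor
    · rintro ⟨h1, h2⟩; constructor <;> nlinarith
    · rintro ⟨h1, h2⟩; constructor <;> nlinarith
  have hsum : ∀ (U : Finset ℤ) x, ∑ l ∈ U, ind k l x = if k x ∈ U then 1 else 0 := by
    intro U x; simp [ind]
  -- the heavy central cell
  have hk0 : ∃ k0 ∈ I0, 1 / (4 * t0 * m) ≤ P k0 := by
    have h1 : ∀ x, 1 - (1 / (t0:ℝ)) * Y x ^ 4 ≤ ∑ l ∈ I0, ind k l x := by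
      intro x
      rw [hsum]
      split_ifs with hx
      · have : 0 ≤ (1 / (t0:ℝ)) * Y x ^ 4 := by positivity
        linarith
      · rw [hI0] at hx
        have h2 : (t0:ℝ) ^ 2 ≤ Y x ^ 2 := by
          by_cases h : -(t0:ℝ) ≤ Y x
          · have : (t0:ℝ) ≤ Y x := by
              by_contra hc; exact hx ⟨h, not_le.mp hc⟩
            nlinarith
          · nlinarith
        have h3 : (t0:ℝ) ≤ Y x ^ 4 := by
          have h5 : (t0:ℝ) ≤ Y x ^ 2 := by nlinarith
          have h6 : Y x ^ 4 = Y x ^ 2 * Y x ^ 2 := by ring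
          rw [h6]; nlinarith
        rw [one_div, sub_nonpos, ← div_eq_inv_mul, le_div_iff₀ (by linarith)]
        linarith
    have h2 := Ex_mono hw h1
    rw [Ex_sub, Ex_const hw, Ex_const_mul, Ex_sum] at h2
    have h3 : (1 / (t0:ℝ)) * Ex w (fun x => Y x ^ 4) ≤ 1 / 2 := by
      rw [one_div, ← div_eq_inv_mul, div_le_iff₀ (by linarith)]; linarith
    apply Finset.exists_le_of_sum_le
    · rw [← Finset.card_pos, hI0card]
      have : 0 < j := by omega
      have : 0 < t0 := by omega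
      positivity
    · rw [Finset.sum_const, hI0card, nsmul_eq_mul]
      push_cast
      rw [← hm]
      have : 2 * (t0 * m) * (1 / (4 * t0 * m)) = 1 / 2 := by field_simp; ring
      rw [this]
      linarith
  obtain ⟨k0, hk0I, hk0P⟩ := hk0
  have hk0b : |(k0:ℝ) / m| ≤ t := by
    simp only [I0, Finset.mem_Ico] at hk0I
    have h1 : (-((t0 * j ^ 3 : ℕ) : ℤ) : ℝ) ≤ k0 := by exact_mod_cast hk0I.1
    have h2 : (k0:ℝ) ≤ ((t0 * j ^ 3 : ℕ) : ℤ) := by exact_mod_cast hk0I.2.le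
    push_cast at h1 h2
    rw [← hm] at h1 h2
    rw [abs_le, le_div_iff₀ hmpos, div_le_iff₀ hmpos]
    constructor <;> nlinarith
  let H : Finset ℤ := I.filter (fun l => p0 ≤ P l)
  have hk0H : k0 ∈ H := by
    simp only [H, Finset.mem_filter]
    refine ⟨?_, hp1.trans hk0P⟩
    simp only [I0, I, Finset.mem_Ico] at hk0I ⊢
    have : t0 * j ^ 3 ≤ j ^ 5 := by
      have : t0 ≤ j ^ 2 := by nlinarith
      calc t0 * j ^ 3 ≤ j ^ 2 * j ^ 3 := Nat.mul_le_mul_right _ this
        _ = j ^ 5 := by ring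
    omega
  let A : X → {l // l ∈ H} := fun x => if h : k x ∈ H then ⟨k x, h⟩ else ⟨k0, hk0H⟩
  have hAP : ∀ l : {l // l ∈ H}, P l ≤ Ex w (ind A l) := by
    intro l
    refine Ex_mono hw fun x => ?_
    unfold ind
    by_cases hx : k x = l
    · have : A x = l := by
        simp only [A]
        rw [dif_pos (hx ▸ l.2)]
        exact Subtype.ext hx
      simp [hx, this]
    · rw [if_neg hx]; split_ifs <;> norm_num
  have hHP : ∀ l : {l // l ∈ H}, p0 ≤ P l := fun l => (Finset.mem_filter.mp l.2).2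
  let J : ℝ := Ex w (fun x => if k x ∈ H then 0 else (Y x - k0 / m) ^ 2)
  have hJ0 : 0 ≤ J := Ex_nonneg hw fun x => by split_ifs <;> positivity
  have hJ : J ≤ 8 * t ^ 3 * m * p0 + 2 * t0 / t ^ 2 := by
    have htpos : 0 < t := by positivity
    have h1 : ∀ x, (if k x ∈ H then 0 else (Y x - k0 / m) ^ 2)
        ≤ (4 * t ^ 2) * ∑ l ∈ I \ H, ind k l x + (4 / t ^ 2) * Y x ^ 4 := by
      intro x
      rw [hsum]
      have h5 : 0 ≤ (4 / t ^ 2) * Y x ^ 4 := by positivity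
      obtain ⟨hb1, hb2⟩ := abs_le.mp hk0b
      by_cases hx : k x ∈ H
      · rw [if_pos hx]; split_ifs <;> positivity
      · rw [if_neg hx]
        by_cases hx2 : k x ∈ I
        · rw [if_pos (Finset.mem_sdiff.mpr ⟨hx2, hx⟩)]
          rw [hI] at hx2
          nlinarith [hx2.1, hx2.2]
        · rw [if_neg (fun h => hx2 (Finset.mem_sdiff.mp h).1)]
          rw [hI] at hx2
          have h2 : t ^ 2 ≤ Y x ^ 2 := by
            by_cases h : -t ≤ Y x
            · have : t ≤ Y x := by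
                by_contra hc; exact hx2 ⟨h, not_le.mp hc⟩
              nlinarith
            · nlinarith
          have h3 : ((k0:ℝ) / m) ^ 2 ≤ t ^ 2 := by nlinarith
          have h6 : 4 * Y x ^ 2 ≤ (4 / t ^ 2) * Y x ^ 4 := by
            rw [div_mul_eq_mul_div, le_div_iff₀ (by positivity)]
            nlinarith [sq_nonneg (Y x)]
          nlinarith [sq_nonneg (Y x + k0 / m)]
    have h2 := Ex_mono hw h1
    rw [Ex_add, Ex_const_mul, Ex_const_mul, Ex_sum] at h2
    have h3 : ∑ l ∈ I \ H, Ex w (ind k l) ≤ 2 * (t * m) * p0 := by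
      calc ∑ l ∈ I \ H, Ex w (ind k l) ≤ ∑ l ∈ I \ H, p0 := by
            refine Finset.sum_le_sum fun l hl => ?_
            have := Finset.mem_sdiff.mp hl
            have h := this.2
            simp only [H, Finset.mem_filter, not_and, not_le] at h
            exact (h this.1).le
        _ ≤ ∑ l ∈ I, p0 :=
            Finset.sum_le_sum_of_subset_of_nonneg Finset.sdiff_subset fun _ _ _ => hp0.le
        _ = 2 * (t * m) * p0 := by
            rw [Finset.sum_const, hIcard, nsmul_eq_mul, ht, hm]; push_cast; ring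
    have h7 : (4 / t ^ 2) * Ex w (fun x => Y x ^ 4) ≤ 2 * t0 / t ^ 2 := by
      calc _ ≤ (4 / t ^ 2) * (t0 / 2) := mul_le_mul_of_nonneg_left h4 (by positivity)
        _ = _ := by ring
    have h8 := mul_le_mul_of_nonneg_left h3 (show 0 ≤ 4 * t ^ 2 by positivity)
    calc J ≤ _ := h2
      _ ≤ 4 * t ^ 2 * (2 * (t * m) * p0) + 2 * t0 / t ^ 2 := add_le_add h8 h7
      _ = _ := by ring
  refine ⟨{l // l ∈ H}, inferInstance, inferInstance, A, fun l => (l.1 : ℝ) / m, ⟨⟨k0, hk0H⟩⟩,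
    ?_, fun l => (hHP l).trans (hAP l), ?_⟩
  · rw [Fintype.card_coe, ← hIcard]
    exact Finset.card_le_card (Finset.filter_subset _ _)
  · have h1 : ∀ l : {l // l ∈ H}, Ex w (fun x => ind A l x * (Y x - (l.1:ℝ) / m) ^ 2)
        / Ex w (ind A l) ≤ 1 / m ^ 2 + if l = ⟨k0, hk0H⟩ then 4 * t0 * m * J else 0 := by
      intro l
      have hPl : 0 < P l := hp0.trans_le (hHP l)
      have hpl := hAP l
      have h2 : ∀ x, ind A l x * (Y x - (l.1:ℝ) / m) ^ 2 ≤ (1 / m ^ 2) * ind k l x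
          + (if l = ⟨k0, hk0H⟩ then 1 else 0) * (if k x ∈ H then 0 else (Y x - k0 / m) ^ 2) := by
        intro x
        unfold ind
        by_cases hx : k x ∈ H
        · have hA : A x = ⟨k x, hx⟩ := dif_pos hx
          rw [if_pos hx, mul_zero, add_zero, hA]
          by_cases hl : k x = l
          · rw [if_pos (Subtype.ext hl), if_pos hl, one_mul, mul_one, ← hl]
            have h3 := Int.floor_le (m * Y x)
            have h4 := Int.lt_floor_add_one (m * Y x)
            have h5 : Y x - (k x : ℝ) / m = (m * Y x - ⌊m * Y x⌋) / m := by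
              simp only [k]; field_simp
            rw [h5, div_pow]
            refine div_le_div_of_nonneg_right ?_ (by positivity)
            nlinarith
          · rw [if_neg (fun h => hl (congrArg Subtype.val h)), if_neg hl]; simp
        · have hA : A x = ⟨k0, hk0H⟩ := dif_neg hx
          rw [if_neg hx, hA]
          have h3 : 0 ≤ (1 / m ^ 2) * (if k x = l then (1:ℝ) else 0) := by
            split_ifs <;> positivity
          by_cases hl : l = ⟨k0, hk0H⟩
          · subst hl; simp only [if_true, one_mul]; linarith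
          · rw [if_neg (Ne.symm hl), if_neg hl]; linarith
      have h3 := Ex_mono hw h2
      rw [Ex_add, Ex_const_mul, Ex_const_mul] at h3
      rw [div_le_iff₀ (hPl.trans_le hpl)]
      refine h3.trans ?_
      have h4 : (1 / m ^ 2) * Ex w (fun a => ind k l a) ≤ (1 / m ^ 2) * Ex w (ind A l) :=
        mul_le_mul_of_nonneg_left hpl (by positivity)
      rw [add_mul]
      refine add_le_add h4 ?_
      by_cases hl : l = ⟨k0, hk0H⟩
      · rw [if_pos hl, if_pos hl, one_mul]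
        have h5 : 1 / (4 * t0 * m) ≤ Ex w (ind A l) := by
          refine le_trans ?_ hpl; rw [hl]; exact hk0P
        rw [div_le_iff₀ (by positivity)] at h5
        change J ≤ _
        nlinarith
      · rw [if_neg hl, if_neg hl]; simp
    refine (Finset.sum_le_sum fun l _ => h1 l).trans ?_
    rw [Finset.sum_add_distrib, Finset.sum_const, Finset.sum_ite_eq', if_pos (Finset.mem_univ _),
      Finset.card_univ, Fintype.card_coe, nsmul_eq_mul]
    have h2 : (H.card : ℝ) ≤ 2 * (j:ℝ) ^ 5 := by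
      have : H.card ≤ 2 * j ^ 5 := hIcard ▸ Finset.card_le_card (Finset.filter_subset _ _)
      exact_mod_cast this
    have h3 : (H.card : ℝ) * (1 / m ^ 2) ≤ 2 / j := by
      calc _ ≤ (2 * (j:ℝ) ^ 5) * (1 / m ^ 2) := mul_le_mul_of_nonneg_right h2 (by positivity)
        _ = 2 / j := by rw [hm]; field_simp
    have h4 : 4 * t0 * m * J ≤ 4 * t0 * m * (8 * t ^ 3 * m * p0 + 2 * t0 / t ^ 2) :=
      mul_le_mul_of_nonneg_left hJ (by positivity)
    have h5 : 4 * t0 * m * (8 * t ^ 3 * m * p0 + 2 * t0 / t ^ 2)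
        = 8 * (t0:ℝ) ^ 2 / j + 32 * t0 * (j:ℝ) ^ 12 * p0 := by
      rw [hm, ht]; field_simp; ring
    rw [add_div]
    linarith

/-- The cell lemma: universal number of cells and universal lower bound on their masses. -/
lemma cells (B ε : ℝ) (hε : 0 < ε) (hε1 : ε < 1) :
    ∃ (r0 : ℕ) (p0 : ℝ), 0 < p0 ∧ p0 ≤ 1 ∧ ∀ (X : Type) [Fintype X] (w Y : X → ℝ), IsProb w →
      Ex w Y = 0 → 1 ≤ Ex w (fun x => Y x ^ 2) → Ex w (fun x => Y x ^ 4) ≤ B →
      ∃ (C : Type) (_ : Fintype C) (_ : DecidableEq C) (A : X → C) (m : C → ℝ),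
        2 ≤ Fintype.card C ∧ Fintype.card C ≤ r0 ∧ (∀ l, p0 ≤ Ex w (ind A l)) ∧
        (∀ l, Ex w (fun x => ind A l x * (Y x - m l)) = 0) ∧
        ∑ l, Ex w (fun x => ind A l x * (Y x - m l) ^ 2) / Ex w (ind A l) ≤ ε := by
  obtain ⟨t0, ht0, hB⟩ : ∃ t0 : ℕ, 1 ≤ t0 ∧ B ≤ t0 / 2 := by
    refine ⟨⌈2 * B⌉₊ + 1, by omega, ?_⟩
    have := Nat.le_ceil (2 * B)
    push_cast; linarith
  obtain ⟨j, hj, hj2⟩ : ∃ j : ℕ, t0 ≤ j ∧ (2 + 8 * (t0:ℝ) ^ 2) / j ≤ ε / 2 := by
    refine ⟨⌈(2 + 8 * (t0:ℝ) ^ 2) / (ε / 2)⌉₊ + t0, by omega, ?_⟩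
    have h1 := Nat.le_ceil ((2 + 8 * (t0:ℝ) ^ 2) / (ε / 2))
    have h2 : (1:ℝ) ≤ t0 := by exact_mod_cast ht0
    rw [div_le_iff₀ (by positivity)] at h1
    push_cast
    rw [div_le_iff₀ (by positivity)]
    nlinarith
  have ht0' : (1:ℝ) ≤ t0 := by exact_mod_cast ht0
  have hj1 : (1:ℝ) ≤ j := by exact_mod_cast ht0.trans hj
  have hp1 : ε / (64 * t0 * (j:ℝ) ^ 12) ≤ 1 / (4 * t0 * (j:ℝ) ^ 3) := by
    refine div_le_div₀ (by norm_num) hε1.le (by positivity) ?_
    have : (j:ℝ) ^ 3 ≤ (j:ℝ) ^ 12 := pow_le_pow_right₀ hj1 (by norm_num)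
    have : 0 ≤ (j:ℝ) ^ 3 := by positivity
    nlinarith
  refine ⟨2 * j ^ 5, ε / (64 * t0 * (j:ℝ) ^ 12), by positivity, ?_, ?_⟩
  · refine hp1.trans ?_
    rw [div_le_one (by positivity)]
    have : 1 ≤ (j:ℝ) ^ 3 := one_le_pow₀ hj1
    nlinarith
  intro X _ w Y hw h1 h2 h4
  obtain ⟨C, _, _, A, c, hne, hcard, hp, hs⟩ := cells_raw t0 j ht0 hj _ (by positivity) hp1 X w Y
    hw (h4.trans hB)
  have hpos : ∀ l, 0 < Ex w (ind A l) := fun l => lt_of_lt_of_le (by positivity) (hp l)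
  have hs2 : ∑ l, Ex w (fun x => ind A l x *
      (Y x - Ex w (fun x => ind A l x * Y x) / Ex w (ind A l)) ^ 2) / Ex w (ind A l) ≤ ε := by
    refine le_trans (Finset.sum_le_sum fun l _ => div_le_div_of_nonneg_right
      (cond_mean w (ind A l) Y (hpos l) (c l)).2 (hpos l).le) (hs.trans ?_)
    have : 32 * t0 * (j:ℝ) ^ 12 * (ε / (64 * t0 * (j:ℝ) ^ 12)) = ε / 2 := by
      field_simp; ring
    linarith
  refine ⟨C, inferInstance, inferInstance, A,
    fun l => Ex w (fun x => ind A l x * Y x) / Ex w (ind A l), ?_, hcard, hp,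
    fun l => (cond_mean w (ind A l) Y (hpos l) 0).1, hs2⟩
  by_contra hc
  have hsub : Subsingleton C := Fintype.card_le_one_iff_subsingleton.mp (by omega)
  obtain ⟨l0⟩ := hne
  have hind : ind A l0 = fun _ => 1 := by
    funext x; simp [ind, Subsingleton.elim (A x) l0]
  rw [Fintype.sum_subsingleton _ l0, hind, Ex_const hw] at hs2
  simp only [one_mul, div_one] at hs2
  have h1' : Ex w (fun x => Y x) = 0 := h1
  rw [h1'] at hs2
  simp only [sub_zero] at hs2
  linarith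

end Crest.Agent.R63
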