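import Crest.Agent.R63.GS4

/-! Row 63 (S0085), part 5: the determinant halver and the weighted gadget. -/

set_option autoImplicit false
open Finset

namespace Crest.Agent.R63

variable {α : Type} [Fintype α]

/-- two disjoint events of equal mass whose difference has low degree and on which the sum of
the blocks is concentrated -/
def Halver (w Y : α → ℝ) (e S : ℕ) (q0 σ : ℝ) : Prop :=
  ∃ (κ : Type) (_ : Fintype κ) (_ : DecidableEq κ) (P Q : (κ → α) → ℝ) (D : ℕ) (q μ : ℝ),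
    Fintype.card κ ≤ S ∧ D + e ≤ Fintype.card κ ∧ BLow D (fun u => P u - Q u) ∧
    (∀ u, (P u = 0 ∧ Q u = 0) ∨ (P u = 1 ∧ Q u = 0) ∨ (P u = 0 ∧ Q u = 1)) ∧ q0 ≤ q ∧
    Ex (pw w) P = q ∧ Ex (pw w) Q = q ∧
    Ex (pw w) (fun u => P u * (tot Y u - μ)) = 0 ∧ Ex (pw w) (fun u => Q u * (tot Y u - μ)) = 0 ∧
    Ex (pw w) (fun u => P u * (tot Y u - μ) ^ 2) ≤ σ * q ∧
    Ex (pw w) (fun u => Q u * (tot Y u - μ) ^ 2) ≤ σ * q

/-- an integer weight `N ≤ 2 ^ b` of discount `e` with tilted variance at most `β` -/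
def WG (w Y : α → ℝ) (b e S : ℕ) (β p : ℝ) : Prop :=
  ∃ (κ : Type) (_ : Fintype κ) (_ : DecidableEq κ) (N : (κ → α) → ℝ) (D : ℕ) (z : ℝ),
    Fintype.card κ ≤ S ∧ D + e ≤ Fintype.card κ ∧ BLow D N ∧
    (∀ s, ∃ n : ℕ, n ≤ 2 ^ b ∧ N s = n) ∧ p ≤ Ex (pw w) N ∧
    Ex (pw w) (fun s => N s * (tot Y s - z) ^ 2) ≤ β * Ex (pw w) N

lemma WG.halve {w Y : α → ℝ} (hw : IsProb w) {b e S S' : ℕ} {β p q0 σ : ℝ} (hp : 0 ≤ p)
    (hq0 : 0 ≤ q0) (H : WG w Y (b + 1) e S β p) (H' : Halver w Y e S' q0 σ) :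
    WG w Y b e (S + S') (β + σ) (p * q0) := by
  obtain ⟨κ, _, _, N, D, z, hS, hD, hN, hn, hpN, hβ⟩ := H
  obtain ⟨κ', _, _, P, Q, D', q, μ, hS', hD', hPQ, h01, hq, hP0, hQ0, hP1, hQ1, hP2, hQ2⟩ := H'
  choose n hn1 hn2 using hn
  let a : (κ → α) → ℝ := fun s => (((n s + 1) / 2 : ℕ) : ℝ)
  let c : (κ → α) → ℝ := fun s => ((n s / 2 : ℕ) : ℝ)
  have hac : ∀ s, a s + c s = N s := by
    intro s
    rw [hn2]
    simp only [a, c]
    rw [← Nat.cast_add]
    congr 1; omega
  have hq' : 0 ≤ q := hq0.trans hq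
  have hE : Ex (pw w) (fun s : κ ⊕ κ' → α =>
      a (fun k => s (Sum.inl k)) * P (fun k => s (Sum.inr k))
        + c (fun k => s (Sum.inl k)) * Q (fun k => s (Sum.inr k))) = q * Ex (pw w) N := by
    rw [Ex_sumPi w (fun s u => a s * P u + c s * Q u), ← Ex_const_mul]
    refine Ex_congr _ fun s => ?_
    rw [Ex_add, Ex_const_mul, Ex_const_mul, ← hac]
    rw [hP0, hQ0]; ring
  refine ⟨κ ⊕ κ', inferInstance, inferInstance,
    fun s => a (fun k => s (Sum.inl k)) * P (fun k => s (Sum.inr k))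
      + c (fun k => s (Sum.inl k)) * Q (fun k => s (Sum.inr k)),
    Fintype.card κ + Fintype.card κ' - e, z + μ, ?_, ?_, ?_, ?_, ?_, ?_⟩
  · rw [Fintype.card_sum]; omega
  · rw [Fintype.card_sum]; omega
  · have h1 := (hN.sumProd (BLow.full (fun u => (P u + Q u) / 2))).mono
      (D' := Fintype.card κ + Fintype.card κ' - e) (by omega)
    have h2 := ((BLow.full (fun s => (a s - c s) / 2)).sumProd hPQ).mono
      (D' := Fintype.card κ + Fintype.card κ' - e) (by omega)
    refine (h1.add h2).congr fun s => ?_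
    rw [← hac]; ring
  · intro s
    have h1 := hn1 (fun k => s (Sum.inl k))
    rw [pow_succ] at h1
    rcases h01 (fun k => s (Sum.inr k)) with ⟨h, h'⟩ | ⟨h, h'⟩ | ⟨h, h'⟩
    · exact ⟨0, Nat.zero_le _, by simp [h, h']⟩
    · exact ⟨(n (fun k => s (Sum.inl k)) + 1) / 2, by omega, by simp [h, h', a]⟩
    · exact ⟨n (fun k => s (Sum.inl k)) / 2, by omega, by simp [h, h', c]⟩
  · rw [hE, mul_comm]
    exact mul_le_mul hq hpN hp hq'
  · rw [hE]
    have e1 : ∀ s : κ ⊕ κ' → α, (a (fun k => s (Sum.inl k)) * P (fun k => s (Sum.inr k))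
        + c (fun k => s (Sum.inl k)) * Q (fun k => s (Sum.inr k))) * (tot Y s - (z + μ)) ^ 2
        = (fun s u => (a s * P u + c s * Q u) * ((tot Y s - z) + (tot Y u - μ)) ^ 2)
          (fun k => s (Sum.inl k)) (fun k => s (Sum.inr k)) := by
      intro s; rw [tot_sumPi]; ring
    refine (((Ex_congr _ e1).trans (Ex_sumPi w
      (fun s u => (a s * P u + c s * Q u) * ((tot Y s - z) + (tot Y u - μ)) ^ 2))).le).trans ?_
    have h1 : ∀ s : κ → α, Ex (pw w) (fun u : κ' → α =>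
        (a s * P u + c s * Q u) * ((tot Y s - z) + (tot Y u - μ)) ^ 2)
        ≤ q * (N s * (tot Y s - z) ^ 2) + (σ * q) * N s := by
      intro s
      have e2 : ∀ u : κ' → α, (a s * P u + c s * Q u) * ((tot Y s - z) + (tot Y u - μ)) ^ 2
          = (a s * (tot Y s - z) ^ 2) * P u + ((2 * a s * (tot Y s - z)) * (P u * (tot Y u - μ))
            + (a s * (P u * (tot Y u - μ) ^ 2) + ((c s * (tot Y s - z) ^ 2) * Q u
            + ((2 * c s * (tot Y s - z)) * (Q u * (tot Y u - μ))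
            + c s * (Q u * (tot Y u - μ) ^ 2))))) := fun u => by ring
      rw [Ex_congr _ e2]
      simp only [Ex_add, Ex_const_mul, hP1, hQ1]
      change _ * Ex (pw w) P + (_ + (_ + (_ * Ex (pw w) Q + _))) ≤ _
      rw [hP0, hQ0, ← hac]
      have ha : 0 ≤ a s := Nat.cast_nonneg _
      have hc : 0 ≤ c s := Nat.cast_nonneg _
      nlinarith [mul_le_mul_of_nonneg_left hP2 ha, mul_le_mul_of_nonneg_left hQ2 hc]
    refine (Ex_mono hw.pw h1).trans ?_
    rw [Ex_add, Ex_const_mul, Ex_const_mul]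
    change _ + _ * Ex (pw w) N ≤ _
    nlinarith [mul_le_mul_of_nonneg_left hβ hq']

lemma card_even_eq_odd {C : Type} [Fintype C] [DecidableEq C] (h : 2 ≤ Fintype.card C) :
    (Finset.univ.filter (fun π : Equiv.Perm C => Equiv.Perm.sign π = 1)).card
      = (Finset.univ.filter (fun π : Equiv.Perm C => ¬ Equiv.Perm.sign π = 1)).card := by
  obtain ⟨a, b, hab⟩ := Fintype.exists_pair_of_one_lt_card (α := C) (by omega)
  refine Finset.card_nbij' (fun π => Equiv.swap a b * π) (fun π => Equiv.swap a b * π)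
    ?_ ?_ ?_ ?_
  · intro π hπ
    simp only [Finset.coe_filter, Finset.mem_univ, true_and, Set.mem_ofPred_eq] at hπ ⊢
    simp [Equiv.Perm.sign_swap hab, hπ]
  · intro π hπ
    simp only [Finset.coe_filter, Finset.mem_univ, true_and, Set.mem_ofPred_eq] at hπ ⊢
    rcases Int.units_eq_one_or (Equiv.Perm.sign π) with h | h
    · exact absurd h hπ
    · simp [Equiv.Perm.sign_swap hab, h]
  · intro π _; simp [← mul_assoc]
  · intro π _; simp [← mul_assoc]

lemma halver (e : ℕ) (he : 1 ≤ e) (σ : ℝ) (hσ : 0 < σ) (hσ1 : σ < 1) :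
    ∃ (S : ℕ) (q0 : ℝ), 0 < q0 ∧ ∀ (α : Type) [Fintype α] (w Y : α → ℝ), Nrm w Y →
      Halver w Y e S q0 σ := by
  obtain ⟨r0, p0, hp0, hp1, hcells⟩ := cells (4 * (e:ℝ) ^ 2) σ hσ hσ1
  refine ⟨r0 * e, p0 ^ r0, by positivity, fun α _ w Y hN => ?_⟩
  have he' : (1:ℝ) ≤ e := by exact_mod_cast he
  have hW : IsProb (pw (κ := Fin e) w) := hN.prob.pw
  have hYY : Ex w (fun x => Y x * Y x) = 1 := by
    rw [← hN.two]; exact Ex_congr _ fun x => by ring
  obtain ⟨C, _, _, A, m, hC2, hCr, hp, hm1, hm2⟩ := hcells (Fin e → α) (pw w) (tot Y) hW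
    (mom1 hN.prob Y hN.one e) (by
      have := mom2 hN.prob Y Y hN.one hN.one e
      rw [hYY] at this
      rw [Ex_congr _ (fun x => sq (tot Y x)), this]; linarith) (by
      have := mom4 hN.prob Y Y hN.one hN.one e
      rw [hYY] at this
      have e1 : ∀ x : Fin e → α, tot Y x ^ 4 = tot Y x ^ 2 * tot Y x ^ 2 := fun x => by ring
      have e2 : ∀ x, Y x ^ 2 * Y x ^ 2 = Y x ^ 4 := fun x => by ring
      rw [Ex_congr _ e1, this, Ex_congr _ e2]
      nlinarith [hN.four])
  have : Nonempty C := Fintype.card_pos_iff.mp (by omega)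
  set W : (Fin e → α) → ℝ := pw w with hWdef
  have hpos : ∀ l, 0 < Ex W (ind A l) := fun l => hp0.trans_le (hp l)
  let ip : Equiv.Perm C → (C → Fin e → α) → ℝ := fun π t => ∏ i, ind A (π i) (t i)
  let q1 : ℝ := ∏ l, Ex W (ind A l)
  let μ : ℝ := ∑ l, m l
  have hq1 : p0 ^ r0 ≤ q1 := by
    calc p0 ^ r0 ≤ p0 ^ Fintype.card C := pow_le_pow_of_le_one hp0.le hp1 hCr
      _ = ∏ _l : C, p0 := by simp
      _ ≤ q1 := Finset.prod_le_prod (fun _ _ => hp0.le) (fun l _ => hp l)
  have hq1' : 0 ≤ q1 := le_trans (by positivity) hq1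
  have hμ : ∀ (π : Equiv.Perm C) (t : C → Fin e → α),
      tot (tot Y) t - μ = ∑ i, (tot Y (t i) - m (π i)) := by
    intro π t
    rw [Finset.sum_sub_distrib, Equiv.sum_comp π m]; rfl
  have h0 : ∀ π, Ex (pw W) (ip π) = q1 := by
    intro π
    rw [Ex_pw_prod W (fun i => ind A (π i))]
    exact Equiv.prod_comp π (fun l => Ex W (ind A l))
  have h1 : ∀ π, Ex (pw W) (fun t => ip π t * (tot (tot Y) t - μ)) = 0 := by
    intro π
    simp only [hμ π]
    exact tilt_lin W (fun i => ind A (π i)) (fun i x => tot Y x - m (π i)) (fun i => hm1 (π i))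
  have h2 : ∀ π, Ex (pw W) (fun t => ip π t * (tot (tot Y) t - μ) ^ 2) ≤ σ * q1 := by
    intro π
    simp only [hμ π]
    rw [tilt_quad W (fun i => ind A (π i)) (fun i x => tot Y x - m (π i)) (fun i => hm1 (π i))]
    refine le_trans (le_of_eq ?_) (mul_le_mul_of_nonneg_right hm2 hq1')
    rw [← Equiv.sum_comp π (fun l => Ex W (fun x => ind A l x * (tot Y x - m l) ^ 2)
      / Ex W (ind A l)), Finset.sum_mul]
    refine Finset.sum_congr rfl fun i _ => ?_
    have : q1 = Ex W (ind A (π i)) * ∏ k ∈ Finset.univ.erase i, Ex W (ind A (π k)) := by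
      rw [Finset.mul_prod_erase _ (fun k => Ex W (ind A (π k))) (Finset.mem_univ i)]
      exact (Equiv.prod_comp π (fun l => Ex W (ind A l))).symm
    rw [this]
    have := (hpos (π i)).ne'
    field_simp
  let Ev := Finset.univ.filter (fun π : Equiv.Perm C => Equiv.Perm.sign π = 1)
  let Od := Finset.univ.filter (fun π : Equiv.Perm C => ¬ Equiv.Perm.sign π = 1)
  have hEO : Ev.card = Od.card := card_even_eq_odd hC2
  have hEv : (1:ℝ) ≤ Ev.card := by
    have : 0 < Ev.card := Finset.card_pos.mpr ⟨1, by simp [Ev]⟩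
    exact_mod_cast this
  have g0 : ∀ U : Finset (Equiv.Perm C), Ex (pw w) (fun u : C × Fin e → α =>
      ∑ π ∈ U, ip π (fun l i => u (l, i))) = U.card * q1 := by
    intro U
    rw [Ex_prodPi w (fun t => ∑ π ∈ U, ip π t), Ex_sum]
    simp only [← hWdef, h0, Finset.sum_const, nsmul_eq_mul]
  have g1 : ∀ U : Finset (Equiv.Perm C), Ex (pw w) (fun u : C × Fin e → α =>
      (∑ π ∈ U, ip π (fun l i => u (l, i))) * (tot Y u - μ)) = 0 := by
    intro U
    simp only [tot_prodPi Y, Finset.sum_mul]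
    rw [Ex_prodPi w (fun t => ∑ π ∈ U, ip π t * (tot (tot Y) t - μ)), Ex_sum]
    exact Finset.sum_eq_zero fun π _ => h1 π
  have g2 : ∀ U : Finset (Equiv.Perm C), Ex (pw w) (fun u : C × Fin e → α =>
      (∑ π ∈ U, ip π (fun l i => u (l, i))) * (tot Y u - μ) ^ 2) ≤ σ * (U.card * q1) := by
    intro U
    simp only [tot_prodPi Y, Finset.sum_mul]
    rw [Ex_prodPi w (fun t => ∑ π ∈ U, ip π t * (tot (tot Y) t - μ) ^ 2), Ex_sum]
    refine (Finset.sum_le_sum fun π _ => h2 π).trans ?_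
    rw [Finset.sum_const, nsmul_eq_mul]; exact le_of_eq (by ring)
  refine ⟨C × Fin e, inferInstance, inferInstance,
    fun u => ∑ π ∈ Ev, ip π (fun l i => u (l, i)), fun u => ∑ π ∈ Od, ip π (fun l i => u (l, i)),
    (Fintype.card C - 1) * e, Ev.card * q1, μ, ?_, ?_, ?_, ?_, ?_, g0 Ev, ?_, g1 Ev, g1 Od,
    g2 Ev, ?_⟩
  · simp only [Fintype.card_prod, Fintype.card_fin]
    exact Nat.mul_le_mul_right _ hCr
  · simp only [Fintype.card_prod, Fintype.card_fin]
    obtain ⟨r, hr⟩ : ∃ r, Fintype.card C = r + 1 := ⟨Fintype.card C - 1, by omega⟩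
    rw [hr]; simp [add_mul]
  · have h := BLow.comp (κ := C) (ι := Fin e) (α := α) (d := e) id
      (fun g => by simpa using BLow.full (κ := Fin e) (fun x => g (id x))) (BLow.det A)
    refine h.congr fun u => ?_
    rw [← Finset.sum_filter_add_sum_filter_not Finset.univ
      (fun π : Equiv.Perm C => Equiv.Perm.sign π = 1), sub_eq_add_neg, ← Finset.sum_neg_distrib]
    congr 1
    · refine Finset.sum_congr rfl fun π hπ => ?_
      rw [(Finset.mem_filter.mp hπ).2]; simp [ip, ind]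
    · refine Finset.sum_congr rfl fun π hπ => ?_
      rcases Int.units_eq_one_or (Equiv.Perm.sign π) with h | h
      · exact absurd h (Finset.mem_filter.mp hπ).2
      · rw [h]; simp [ip, ind]
  · intro u
    by_cases hex : ∃ π0 : Equiv.Perm C, ∀ i, A (fun k => u (i, k)) = π0 i
    · obtain ⟨π0, hπ0⟩ := hex
      have hip : ∀ π, ip π (fun l i => u (l, i)) = if π = π0 then 1 else 0 := by
        intro π
        simp only [ip, ind, hπ0]
        split_ifs with h
        · simp [h]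
        · obtain ⟨i, hi⟩ : ∃ i, π0 i ≠ π i := by
            by_contra hc; push Not at hc; exact h (Equiv.ext fun i => (hc i).symm)
          exact Finset.prod_eq_zero (Finset.mem_univ i) (if_neg hi)
      simp only [hip, Finset.sum_ite_eq', Ev, Od, Finset.mem_filter, Finset.mem_univ, true_and]
      by_cases hs : Equiv.Perm.sign π0 = 1 <;> simp [hs]
    · push Not at hex
      have hip : ∀ π, ip π (fun l i => u (l, i)) = 0 := by
        intro π
        obtain ⟨i, hi⟩ := hex π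
        exact Finset.prod_eq_zero (Finset.mem_univ i) (if_neg hi)
      simp [hip]
  · nlinarith
  · rw [g0 Od, hEO]
  · rw [hEO]; exact g2 Od

/-- integer sign -/
noncomputable def sgz (t : ℝ) : ℤ := if t < 0 then -1 else if 0 < t then 1 else 0

lemma sgz_neg (t : ℝ) : (sgz (-t) : ℝ) = - sgz t := by
  unfold sgz
  rcases lt_trichotomy t 0 with h | h | h
  · simp [h, h.le]
  · simp [h]
  · simp [h, not_lt.mpr h.le]

lemma sgz_mul (t : ℝ) : (sgz t : ℝ) * t = |t| := by
  unfold sgz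
  rcases lt_trichotomy t 0 with h | h | h
  · simp [h, abs_of_neg h]
  · simp [h]
  · simp [h, not_lt.mpr h.le, abs_of_pos h]

lemma sgz_sq_mul (t : ℝ) : (sgz t : ℝ) ^ 2 * t = t := by
  unfold sgz
  rcases lt_trichotomy t 0 with h | h | h
  · simp [h]
  · simp [h]
  · simp [h, not_lt.mpr h.le]

lemma sgz_abs (t : ℝ) : |sgz t| ≤ 1 := by
  unfold sgz; split_ifs <;> simp

lemma WG.small {w Y : α → ℝ} (hN : Nrm w Y) : WG w Y 14 106 108 102 1 := by
  let a : α → ℝ := fun x => (sgz (Y x) : ℝ)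
  have hw := hN.prob
  have ha : Ex w a = 0 := hN.odd (fun t => (sgz t : ℝ)) sgz_neg
  have hY := hN.one
  set v := Ex w (fun x => a x * a x) with hv
  set ρ := Ex w (fun x => a x * Y x) with hρ
  have hv0 : 0 ≤ v := Ex_nonneg hw fun x => mul_self_nonneg _
  have hv1 : v ≤ 1 := by
    rw [← Ex_const hw 1]
    refine Ex_mono hw fun x => ?_
    have h : |(sgz (Y x) : ℝ)| ≤ 1 := by exact_mod_cast sgz_abs (Y x)
    have := abs_le.mp h
    simp only [a]; nlinarith
  have hρ1 : 1 / 2 ≤ ρ := by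
    rw [hρ, Ex_congr _ (fun x => sgz_mul (Y x))]; exact hN.abs
  have hYY : Ex w (fun x => Y x * Y x) = 1 := by
    rw [← hN.two]; exact Ex_congr _ fun x => by ring
  have m21 : Ex w (fun x => a x ^ 2 * Y x) = 0 := by
    rw [Ex_congr _ (fun x => sgz_sq_mul (Y x))]; exact hY
  have m12 : Ex w (fun x => Y x ^ 2 * a x) = 0 :=
    hN.odd (fun t => t ^ 2 * (sgz t : ℝ)) (fun t => by rw [sgz_neg]; ring)
  have m22 : Ex w (fun x => a x ^ 2 * Y x ^ 2) = 1 := by
    rw [← hYY]
    refine Ex_congr _ fun x => ?_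
    have := sgz_sq_mul (Y x)
    calc _ = ((sgz (Y x) : ℝ) ^ 2 * Y x) * Y x := by simp only [a]; ring
      _ = _ := by rw [this]
  have hE : Ex (pw w) (fun s : Fin 108 → α => (tot a s - 18) ^ 2) = 108 * v + 324 := by
    have e : ∀ s : Fin 108 → α, (tot a s - 18) ^ 2
        = tot a s * tot a s + ((-36) * tot a s + 324) := fun s => by ring
    rw [Ex_congr _ e, Ex_add, Ex_add, Ex_const_mul, mom2 hw a a ha ha, mom1 hw a ha,
      Ex_const hw.pw]
    push_cast; ring
  refine ⟨Fin 108, inferInstance, inferInstance, fun s => (tot a s - 18) ^ 2, 2, -9 * ρ,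
    by simp, by simp, ?_, ?_, by rw [hE]; linarith, ?_⟩
  · have h1 : BLow 2 (fun s : Fin 108 → α => ∑ i, ∑ j, a (s i) * a (s j)) :=
      BLow.sum _ _ fun i _ => BLow.sum _ _ fun j _ => BLow.coord2 i j a a
    have h2 : BLow 2 (fun s : Fin 108 → α => ∑ i, a (s i)) :=
      BLow.sum _ _ fun i _ => (BLow.coord i a).mono (by norm_num)
    refine ((h1.add (h2.const_mul (-36))).add (BLow.const 2 324)).congr fun s => ?_
    rw [← Finset.sum_mul_sum]
    unfold tot; ring
  · intro s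
    have h1 : |∑ i, sgz (Y (s i))| ≤ 108 := by
      refine (Finset.abs_sum_le_sum_abs _ _).trans ?_
      refine (Finset.sum_le_sum fun i _ => sgz_abs (Y (s i))).trans ?_
      simp
    refine ⟨(∑ i, sgz (Y (s i)) - 18).natAbs ^ 2, ?_, ?_⟩
    · have h2 : (∑ i, sgz (Y (s i)) - 18).natAbs ≤ 126 := by
        have := abs_le.mp h1
        omega
      calc _ ≤ 126 ^ 2 := Nat.pow_le_pow_left h2 2
        _ ≤ 2 ^ 14 := by norm_num
    · push_cast
      rw [Nat.cast_natAbs]
      push_cast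
      rw [sq_abs]
      rfl
  · rw [hE]
    have e : ∀ s : Fin 108 → α, (tot a s - 18) ^ 2 * (tot Y s - -9 * ρ) ^ 2
        = tot a s ^ 2 * tot Y s ^ 2 + ((18 * ρ) * (tot a s ^ 2 * tot Y s)
          + ((81 * ρ ^ 2) * (tot a s * tot a s) + ((-36) * (tot Y s ^ 2 * tot a s)
          + ((-648 * ρ) * (tot a s * tot Y s) + ((-2916 * ρ ^ 2) * tot a s
          + (324 * (tot Y s * tot Y s) + ((5832 * ρ) * tot Y s + 26244 * ρ ^ 2))))))) :=
      fun s => by ring
    rw [Ex_congr _ e]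
    simp only [Ex_add, Ex_const_mul, mom4 hw a Y ha hY, mom3 hw a Y ha hY, mom3 hw Y a hY ha,
      mom2 hw a a ha ha, mom2 hw a Y ha hY, mom2 hw Y Y hY hY, mom1 hw a ha, mom1 hw Y hY,
      Ex_const hw.pw, m21, m12, m22, hYY, ← hv, ← hρ]
    push_cast
    nlinarith [mul_nonneg (sq_nonneg ρ) (sub_nonneg.mpr hv1)]

/-- the gadget: a set of discount `106` and conditional variance at most `103` -/
lemma gadget : ∃ (S : ℕ) (p : ℝ), 0 < p ∧ ∀ (α : Type) [Fintype α] (w Y : α → ℝ), Nrm w Y →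
    WG w Y 0 106 S 103 p := by
  obtain ⟨S', q0, hq0, hH⟩ := halver 106 (by norm_num) (1 / 14) (by norm_num) (by norm_num)
  refine ⟨108 + 14 * S', q0 ^ 14, by positivity, fun α _ w Y hN => ?_⟩
  have key : ∀ i : ℕ, i ≤ 14 → WG w Y (14 - i) 106 (108 + i * S') (102 + i / 14) (q0 ^ i) := by
    intro i
    induction i with
    | zero => intro _; simpa using WG.small hN
    | succ i ih =>
      intro hi
      have h1 := ih (by omega)
      rw [show 14 - i = (14 - (i + 1)) + 1 by omega] at h1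
      have h2 := WG.halve hN.prob (by positivity) hq0.le h1 (hH α w Y hN)
      convert h2 using 1
      · ring
      · push_cast; ring
      · ring
  have := key 14 le_rfl
  norm_num at this
  exact this

end Crest.Agent.R63
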