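import Crest.Agent.R63.GS5

/-! Row 63 (S0085), part 6: amortisation, giving a universal gain per round. -/

set_option autoImplicit false
open Finset

namespace Crest.Agent.R63

lemma mom1' {α κ : Type} [Fintype α] [Fintype κ] [DecidableEq κ] {w : α → ℝ} (Y : α → ℝ)
    (hY : Ex w Y = 0) : Ex (pw w) (fun s : κ → α => tot Y s) = 0 := by
  have := tilt_lin (κ := κ) w (fun _ _ => 1) (fun _ => Y) (fun _ => by simpa using hY)
  simpa [tot] using this

lemma mom2' {α κ : Type} [Fintype α] [Fintype κ] [DecidableEq κ] {w : α → ℝ} (hw : IsProb w)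
    (Y : α → ℝ) (hY : Ex w Y = 0) :
    Ex (pw w) (fun s : κ → α => tot Y s ^ 2) = Fintype.card κ * Ex w (fun x => Y x ^ 2) := by
  have := tilt_quad (κ := κ) w (fun _ _ => 1) (fun _ => Y) (fun _ => by simpa using hY)
  simpa [tot, Ex_const hw] using this

lemma gain : ∃ g : ℝ, 0 < g ∧ ∀ (α : Type) [Fintype α] (w Y : α → ℝ), Nrm w Y →
    ∃ (γ : Type) (_ : Fintype γ) (v Z : γ → ℝ) (D : ℕ), IsProb v ∧ Rel w Y v Z D ∧
      (1 + g) * D + 1 ≤ Ex v (fun c => Z c ^ 2) := by
  classical
  obtain ⟨S0, p0, hp0, hG⟩ := gadget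
  refine ⟨p0 / (2 * (S0 + 1)), by positivity, fun α _ w Y hN => ?_⟩
  obtain ⟨κ, _, _, N, D, z, hS, hD, hlow, hn, hp, hβ⟩ := hG α w Y hN
  have hw := hN.prob
  set W : (κ → α) → ℝ := pw w with hWdef
  have hW : IsProb W := hw.pw
  have h01 : ∀ x, N x = 0 ∨ N x = 1 := by
    intro x
    obtain ⟨n, h1, h2⟩ := hn x
    have : n = 0 ∨ n = 1 := by omega
    rcases this with h | h <;> simp [h2, h]
  set p := Ex W N with hpdef
  have hpp : 0 < p := hp0.trans_le hp
  have hp1 : p ≤ 1 := by
    rw [← Ex_const hW 1]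
    exact Ex_mono hW fun x => by rcases h01 x with h | h <;> simp [h]
  obtain ⟨hb0, hb2⟩ := cond_mean W N (tot Y) hpp z
  set z' := Ex W (fun x => N x * tot Y x) / Ex W N with hz'
  let b : (κ → α) → ℝ := fun x => N x * (tot Y x - z')
  let a : (κ → α) → ℝ := fun x => N x - p
  have ha0 : Ex W a = 0 := by
    have : Ex W a = Ex W N - Ex W (fun _ => p) := Ex_sub W N (fun _ => p)
    rw [this, Ex_const hW]; simp [hpdef]
  have hZ0 : Ex W (tot Y) = 0 := mom1' Y hN.one
  have hbb : Ex W (fun x => b x * b x) ≤ 103 * p := by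
    refine le_trans (le_of_eq (Ex_congr _ fun x => ?_)) (hb2.trans hβ)
    simp only [b]
    rcases h01 x with h | h <;> simp [h, sq]
  set c1 := Ex W (fun x => a x ^ 2 * tot Y x ^ 2) with hc1
  set c2 := Ex W (fun x => a x * a x) * Ex W (fun x => tot Y x * tot Y x)
    + 2 * Ex W (fun x => a x * tot Y x) ^ 2 with hc2
  have hc1' : 0 ≤ c1 := Ex_nonneg hW fun x => by positivity
  have hc2' : 0 ≤ c2 := add_nonneg (mul_nonneg (Ex_nonneg hW fun x => mul_self_nonneg _)
    (Ex_nonneg hW fun x => mul_self_nonneg _)) (by positivity)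
  set C' := (c1 + c2) / (p / 53) ^ 2 with hC'
  obtain ⟨M, hM1, hM⟩ : ∃ M : ℕ, 1 ≤ M ∧ 107 + C' ≤ M * p / 2 := by
    refine ⟨⌈2 * (107 + C') / p⌉₊ + 1, by omega, ?_⟩
    have h1 := Nat.le_ceil (2 * (107 + C') / p)
    rw [div_le_iff₀ hpp] at h1
    push_cast; nlinarith
  have hM1' : (1:ℝ) ≤ M := by exact_mod_cast hM1
  let j0 : ℕ := ⌊52 / 53 * p * M⌋₊
  have hj1 : (j0:ℝ) ≤ 52 / 53 * p * M := Nat.floor_le (by positivity)
  have hj2 : 52 / 53 * p * M < j0 + 1 := Nat.lt_floor_add_one _
  let G0 : (κ → α) → Option (κ → α) := fun x => if N x = 1 then none else some x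
  let cnt : (Fin M → Option (κ → α)) → ℕ := fun t => (Finset.univ.filter (fun m => t m = none)).card
  let G1 : (Fin M → κ → α) → Option (Fin M → Option (κ → α)) := fun t =>
    if j0 ≤ cnt (fun m => G0 (t m)) then some (fun m => G0 (t m)) else none
  let ψ0 : Option (κ → α) → ℝ := fun o => o.elim z' (tot Y)
  let ψ : Option (Fin M → Option (κ → α)) → ℝ := fun o => o.elim 0 (fun t => ∑ m, ψ0 (t m))
  have hG0 : ∀ x, (if G0 x = none then (1:ℝ) else 0) = N x := by
    intro x
    simp only [G0]
    rcases h01 x with h | h <;> simp [h]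
  have hj3 : j0 * 106 ≤ M * Fintype.card κ := by
    have : j0 ≤ M := by
      have : (j0:ℝ) ≤ M := by nlinarith
      exact_mod_cast this
    exact Nat.mul_le_mul this (by omega)
  have hdeg : ∀ g : Option (Fin M → Option (κ → α)) → ℝ,
      BLow (M * Fintype.card κ - j0 * 106)
        (fun s : Fin M × κ → α => g (G1 (fun m k => s (m, k)))) := by
    intro g
    have h1 : ∀ t ∈ Finset.univ.filter (fun t : Fin M → Option (κ → α) => j0 ≤ cnt t),
        BLow (M * Fintype.card κ - j0 * 106) (fun s : Fin M × κ → α =>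
          (g (some t) - g none) * ∏ m, (if G0 (fun k => s (m, k)) = t m then (1:ℝ) else 0)) := by
      intro t ht
      have ht' : j0 ≤ cnt t := (Finset.mem_filter.mp ht).2
      refine ((BLow.prodPi (fun m => if t m = none then D else Fintype.card κ)
        (fun m x => if G0 x = t m then (1:ℝ) else 0) (fun m => ?_)).mono ?_).const_mul _
      · by_cases hm : t m = none
        · rw [if_pos hm, hm]; exact hlow.congr hG0
        · rw [if_neg hm]; exact BLow.full _
      · have h2 : ∑ m, (if t m = none then D else Fintype.card κ) + cnt t * 106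
            ≤ M * Fintype.card κ := by
          simp only [cnt, Finset.card_filter, Finset.sum_mul]
          rw [← Finset.sum_add_distrib]
          refine (Finset.sum_le_sum (g := fun _ => Fintype.card κ) fun m _ => ?_).trans (by simp)
          split_ifs <;> omega
        have := Nat.mul_le_mul_right 106 ht'
        omega
    refine ((BLow.const _ (g none)).add (BLow.sum _ _ h1)).congr fun s => ?_
    have h2 : ∀ t : Fin M → Option (κ → α),
        ∏ m, (if G0 (fun k => s (m, k)) = t m then (1:ℝ) else 0)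
          = if t = fun m => G0 (fun k => s (m, k)) then 1 else 0 := by
      intro t
      split_ifs with h
      · simp [h]
      · obtain ⟨m, hm⟩ := Function.ne_iff.mp h
        exact Finset.prod_eq_zero (Finset.mem_univ m) (if_neg (Ne.symm hm))
    simp only [h2, mul_ite, mul_one, mul_zero, Finset.sum_ite_eq', Finset.mem_filter,
      Finset.mem_univ, true_and, G1]
    split_ifs <;> simp
  obtain ⟨v, Z, hv, hR, hZ⟩ := Rel.coarse (Y := Y) hw
    (fun s : Fin M × κ → α => G1 (fun m k => s (m, k))) hdeg ψ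
  refine ⟨_, inferInstance, v, Z, _, hv, hR, le_trans ?_ hZ⟩
  rw [mom2' hw Y hN.one, hN.two]
  have herr : Ex (pw w) (fun s : Fin M × κ → α =>
      (tot Y s - ψ (G1 (fun m k => s (m, k)))) ^ 2) ≤ M * (103 * p) + C' := by
    simp only [tot_prodPi Y]
    rw [Ex_prodPi w (fun t : Fin M → κ → α => (tot (tot Y) t - ψ (G1 t)) ^ 2)]
    have h1 : ∀ t : Fin M → κ → α, (tot (tot Y) t - ψ (G1 t)) ^ 2
        ≤ tot b t * tot b t + (1 / (p / 53 * M) ^ 2) * (tot a t ^ 2 * tot (tot Y) t ^ 2) := by
      intro t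
      have h2 : 0 ≤ (1 / (p / 53 * M) ^ 2) * (tot a t ^ 2 * tot (tot Y) t ^ 2) := by positivity
      simp only [G1]
      split_ifs with h
      · have : tot (tot Y) t - ψ (some fun m => G0 (t m)) = tot b t := by
          simp only [ψ, Option.elim, tot]
          rw [← Finset.sum_sub_distrib]
          refine Finset.sum_congr rfl fun m _ => ?_
          simp only [b, G0, ψ0]
          rcases h01 (t m) with h | h <;> simp [h, tot]
        rw [this, sq]; linarith
      · have h3 : tot a t = cnt (fun m => G0 (t m)) - p * M := by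
          simp only [tot, a, cnt, Finset.card_filter]
          rw [Finset.sum_sub_distrib]
          push_cast
          simp only [hG0]
          simp [mul_comm]
        have h4 : (cnt (fun m => G0 (t m)) : ℝ) ≤ j0 := by exact_mod_cast (not_le.mp h).le
        have h5 : (p / 53 * M) ^ 2 ≤ tot a t ^ 2 := by
          have h6 : tot a t ≤ -(p / 53 * M) := by rw [h3]; linarith
          have h7 : 0 ≤ p / 53 * M := by positivity
          nlinarith
        have h6 : tot (tot Y) t ^ 2
            ≤ (1 / (p / 53 * M) ^ 2) * (tot a t ^ 2 * tot (tot Y) t ^ 2) := by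
          rw [one_div, ← div_eq_inv_mul, le_div_iff₀ (by positivity)]
          nlinarith [sq_nonneg (tot (tot Y) t)]
        simp only [ψ, Option.elim, sub_zero]
        nlinarith [mul_self_nonneg (tot b t)]
    refine (Ex_mono hW.pw h1).trans ?_
    rw [Ex_add, Ex_const_mul, mom2 hW b b hb0 hb0, mom4 hW a (tot Y) ha0 hZ0, ← hc1, ← hc2]
    refine add_le_add (mul_le_mul_of_nonneg_left hbb (by positivity)) ?_
    rw [hC', one_div, ← div_eq_inv_mul, div_le_div_iff₀ (by positivity) (by positivity)]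
    have h3 : (M:ℝ) * c1 + M * (M - 1) * c2 ≤ (c1 + c2) * M ^ 2 := by
      nlinarith [mul_nonneg hc1' (show (0:ℝ) ≤ M * (M - 1) by nlinarith),
        mul_nonneg hc2' (show (0:ℝ) ≤ M by positivity)]
    have h4 := mul_le_mul_of_nonneg_right h3 (show 0 ≤ (p / 53) ^ 2 by positivity)
    calc _ ≤ _ := h4
      _ = _ := by ring
  rw [Nat.cast_sub hj3, Fintype.card_prod, Fintype.card_fin]
  push_cast
  have hS' : (Fintype.card κ : ℝ) ≤ S0 := by exact_mod_cast hS
  have h1 : p0 / (2 * (S0 + 1)) * (M * Fintype.card κ - j0 * 106) ≤ M * p / 2 := by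
    rw [div_mul_eq_mul_div, div_le_div_iff₀ (by positivity) (by positivity)]
    have h2 : (M:ℝ) * Fintype.card κ - j0 * 106 ≤ M * (S0 + 1) := by
      have : (0:ℝ) ≤ j0 := Nat.cast_nonneg _
      nlinarith
    have h3 : p0 * ((M:ℝ) * Fintype.card κ - j0 * 106) ≤ p0 * (M * (S0 + 1)) :=
      mul_le_mul_of_nonneg_left h2 hp0.le
    have h4 : p0 * (M * ((S0:ℝ) + 1)) ≤ p * (M * (S0 + 1)) :=
      mul_le_mul_of_nonneg_right hp (by positivity)
    nlinarith
  nlinarith

end Crest.Agent.R63
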