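import Crest.Agent.R63.GS6

/-! Row 63 (S0085), part 7: iteration of the gain. -/

set_option autoImplicit false
open Finset

namespace Crest.Agent.R63

/-- uniform weight on a bit -/
noncomputable def half : Bool → ℝ := fun _ => 1 / 2

/-- sign of a bit -/
def sg : Bool → ℝ := fun b => if b then 1 else -1

lemma half_prob : IsProb half := ⟨fun _ => by simp [half], by simp [half]⟩

lemma Ex_half_sg : Ex half sg = 0 := by simp [Ex, half, sg]

/-- there is an object of efficiency at least `ρ` -/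
def Eff (ρ : ℝ) : Prop :=
  ∃ (β : Type) (_ : Fintype β) (w Y : β → ℝ) (d : ℕ), IsProb w ∧ Rel half sg w Y d ∧
    0 < Ex w (fun b => Y b ^ 2) ∧ ρ * d ≤ Ex w (fun b => Y b ^ 2)

lemma eff_one : Eff 1 := by
  have h := mom2' (κ := Unit) half_prob sg Ex_half_sg
  have h2 : Ex half (fun x => sg x ^ 2) = 1 := by simp [Ex, half, sg]
  rw [h2] at h
  refine ⟨Unit → Bool, inferInstance, pw half, tot sg, _, half_prob.pw, Rel.pow Unit half sg,
    ?_, ?_⟩ <;> rw [h] <;> simp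

lemma Rel.mean {β : Type} [Fintype β] {w Y : β → ℝ} {d : ℕ} (H : Rel half sg w Y d) :
    Ex w Y = 0 := by
  obtain ⟨ι, _, _, F, _, _, h3⟩ := H
  have := h3 (fun _ => 1)
  simp only [mul_one] at this
  rw [mom1' sg Ex_half_sg] at this
  exact this.symm

lemma Ex_pair {β : Type} [Fintype β] (w : β → ℝ) (f : β × β → ℝ) :
    Ex (fun p : β × β => w p.1 * w p.2) f = Ex w (fun b => Ex w (fun c => f (b, c))) := by
  unfold Ex
  rw [Fintype.sum_prod_type]
  simp only [Finset.mul_sum, mul_assoc]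

lemma Eff.normalise {ρ : ℝ} (H : Eff ρ) :
    ∃ (β : Type) (_ : Fintype β) (w Y : β → ℝ) (s : ℝ) (d : ℕ), Nrm w Y ∧ 0 < s ∧
      Rel half sg w (fun b => s * Y b) d ∧ ρ * d ≤ s ^ 2 := by
  obtain ⟨β, _, w, Y, d, hw, hR, hV, hρ⟩ := H
  have hY := hR.mean
  set V := Ex w (fun b => Y b ^ 2) with hVdef
  set m4 := Ex w (fun b => Y b ^ 2 * Y b ^ 2) with hm4
  obtain ⟨T, hT1, hT⟩ : ∃ T : ℕ, 1 ≤ T ∧ m4 ≤ T * V ^ 2 := by
    refine ⟨⌈m4 / V ^ 2⌉₊ + 1, by omega, ?_⟩
    have h1 := Nat.le_ceil (m4 / V ^ 2)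
    rw [div_le_iff₀ (by positivity)] at h1
    push_cast; nlinarith [sq_nonneg V]
  have hT1' : (1:ℝ) ≤ T := by exact_mod_cast hT1
  have hR1 := hR.trans (Rel.pow (Fin T) w Y)
  rw [Fintype.card_fin] at hR1
  set W : (Fin T → β) → ℝ := pw w with hWdef
  set Z : (Fin T → β) → ℝ := tot Y with hZdef
  have hW : IsProb W := hw.pw
  have hZ1 : Ex W Z = 0 := hR1.mean
  have hZ2 : Ex W (fun x => Z x ^ 2) = T * V := by
    have := mom2' (κ := Fin T) hw Y hY
    rwa [Fintype.card_fin] at this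
  have hYY : Ex w (fun x => Y x * Y x) = V := Ex_congr _ fun x => by ring
  have hZ4 : Ex W (fun x => Z x ^ 4) ≤ 4 * (T * V) ^ 2 := by
    have := mom4 hw Y Y hY hY T
    rw [hYY, ← hm4] at this
    have e1 : ∀ x, Z x ^ 4 = tot Y x ^ 2 * tot Y x ^ 2 := fun x => by rw [hZdef]; ring
    rw [Ex_congr _ e1, this]
    nlinarith [mul_le_mul_of_nonneg_left hT (show (0:ℝ) ≤ T by positivity), sq_nonneg V]
  have hR2 := hR1.prod (hR1.neg (Function.Involutive.toPerm not Bool.not_not)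
    (fun _ => rfl) (fun a => by cases a <;> simp [sg]))
  have hU : 0 < 2 * (T * V) := by positivity
  set s := Real.sqrt (2 * (T * V)) with hs
  have hs0 : 0 < s := Real.sqrt_pos.mpr hU
  have hs2 : s ^ 2 = 2 * (T * V) := Real.sq_sqrt hU.le
  have hW2 : IsProb (fun p : (Fin T → β) × (Fin T → β) => W p.1 * W p.2) := by
    refine ⟨fun p => mul_nonneg (hW.1 _) (hW.1 _), ?_⟩
    rw [Fintype.sum_prod_type, ← Finset.sum_mul_sum, hW.2]; simp
  have hZ1' : Ex W (fun x => Z x) = 0 := hZ1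
  refine ⟨(Fin T → β) × (Fin T → β), inferInstance, fun p => W p.1 * W p.2,
    fun p => (Z p.1 - Z p.2) / s, s, T * d + T * d, ⟨hW2, fun φ => ?_, ?_, ?_⟩, hs0, ?_, ?_⟩
  · rw [Ex_pair, Ex_pair, Ex_comm]
    exact Ex_congr _ fun b => Ex_congr _ fun c => by congr 1; ring
  · have e : ∀ b c : Fin T → β, ((Z b - Z c) / s) ^ 2
        = (1 / s ^ 2) * (Z b ^ 2 + ((-2) * (Z b * Z c) + Z c ^ 2)) := fun b c => by
      field_simp; ring
    rw [Ex_pair]
    simp only [e, Ex_add, Ex_const_mul, Ex_mul_const, Ex_const hW, hZ1', hZ2, hs2]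
    field_simp; ring
  · have e : ∀ b c : Fin T → β, ((Z b - Z c) / s) ^ 4
        = (1 / (s ^ 2) ^ 2) * (Z b ^ 4 + ((-4) * (Z b ^ 3 * Z c) + (6 * (Z b ^ 2 * Z c ^ 2)
          + ((-4) * (Z b * Z c ^ 3) + Z c ^ 4)))) := fun b c => by
      field_simp; ring
    rw [Ex_pair]
    simp only [e, Ex_add, Ex_const_mul, Ex_mul_const, Ex_const hW, hZ1', hZ2, hs2]
    rw [one_div, ← div_eq_inv_mul, div_le_iff₀ (by positivity)]
    nlinarith [sq_nonneg (T * V)]
  · have e : (fun b : (Fin T → β) × (Fin T → β) => s * ((Z b.1 - Z b.2) / s))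
        = fun p => Z p.1 + - Z p.2 := by
      funext b; field_simp; ring
    rw [e]; exact hR2
  · rw [hs2]; push_cast
    nlinarith [mul_le_mul_of_nonneg_left hρ (show (0:ℝ) ≤ T by positivity)]

lemma eff_all (ρ : ℝ) : Eff ρ := by
  obtain ⟨g, hg, hG⟩ := gain
  have step : ∀ r : ℝ, 0 ≤ r → Eff r → Eff ((1 + g) * r) := by
    intro r hr H
    obtain ⟨β, _, w, Y, s, d, hN, hs, hR, hρ⟩ := H.normalise
    obtain ⟨γ, _, v, Z, D, hv, hR', hZ⟩ := hG β w Y hN
    have e : Ex v (fun c => (s * Z c) ^ 2) = s ^ 2 * Ex v (fun c => Z c ^ 2) := by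
      rw [← Ex_const_mul]; exact Ex_congr _ fun c => by ring
    have hD : 0 ≤ (1 + g) * D := by positivity
    refine ⟨γ, inferInstance, v, fun c => s * Z c, D * d, hv, hR.trans (hR'.scale s), ?_, ?_⟩
    · rw [e]; exact mul_pos (by positivity) (by linarith)
    · rw [e]; push_cast
      nlinarith [mul_le_mul_of_nonneg_left hρ hD, mul_le_mul_of_nonneg_left hZ (sq_nonneg s),
        sq_nonneg s]
  have hk : ∀ k : ℕ, Eff ((1 + g) ^ k) := by
    intro k
    induction k with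
    | zero => simpa using eff_one
    | succ k ih => rw [pow_succ, mul_comm]; exact step _ (by positivity) ih
  obtain ⟨k, hk2⟩ := pow_unbounded_of_one_lt ρ (show 1 < 1 + g by linarith)
  obtain ⟨β, _, w, Y, d, hw, hR, hV, hρ⟩ := hk k
  exact ⟨β, inferInstance, w, Y, d, hw, hR, hV,
    le_trans (mul_le_mul_of_nonneg_right hk2.le (Nat.cast_nonneg _)) hρ⟩

/-- the Boolean function, on an arbitrary finite index type -/
lemma main_aux (C : ℝ) :
    ∃ (ι : Type) (_ : Fintype ι) (_ : DecidableEq ι) (f : (ι → Bool) → Bool) (d : ℕ),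
      BLow d (fun x => sg (f x)) ∧
      C * Real.sqrt d < Ex (pw half) (fun x : ι → Bool => tot sg x * sg (f x)) := by
  obtain ⟨β, _, w, Y, s, d, hN, hs, ⟨ι, _, _, F, h1, _, h3⟩, hρ⟩ := (eff_all (8 * C ^ 2)).normalise
  refine ⟨ι, inferInstance, inferInstance, fun x => decide (0 ≤ Y (F x)), d,
    h1 (fun b => sg (decide (0 ≤ Y b))), ?_⟩
  rw [h3 (fun b => sg (decide (0 ≤ Y b)))]
  have e : ∀ b, s * Y b * sg (decide (0 ≤ Y b)) = s * |Y b| := by
    intro b
    by_cases h : 0 ≤ Y b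
    · simp [sg, h, abs_of_nonneg h]
    · simp [sg, h, abs_of_neg (not_le.mp h)]
  rw [Ex_congr _ e, Ex_const_mul]
  have h2 : C * Real.sqrt d < s / 2 := by
    refine lt_of_pow_lt_pow_left₀ 2 (by positivity) ?_
    rw [mul_pow, Real.sq_sqrt (Nat.cast_nonneg _)]
    nlinarith [sq_pos_of_pos hs]
  nlinarith [mul_le_mul_of_nonneg_left hN.abs hs.le]

end Crest.Agent.R63
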